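import Vale.Agent.P208.Embed.Edge

/-!
P208: the segment sets are not embeddable, given the statement for one tree. By induction on the
rounds, every copy of a segment set is stretched at most `D - r * etaR`.
-/

noncomputable section

open Metric Set RealInnerProductSpace

namespace Vale.Agent.P208

namespace SegRound

variable {m k : ℕ}

lemma zero_mem (r : ℕ) (h : 0 ≤ margin m) : (0 : E m) ∈ segSet (m := m) r := by
  cases r with
  | zero => exact ⟨0, by simp, by simp⟩
  | succ r => exact Or.inl (Or.inl ⟨0, by simp [h], by simp⟩)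

lemma margin_le (hm : Big m) : 0 < margin m ∧ margin m ≤ 1 / 4 := by
  have hm' : (100 : ℝ) ≤ m := by exact_mod_cast hm
  have h1 : (1 : ℝ) ≤ rootA m * width m :=
    one_le_mul_of_one_le_of_one_le root_aok.one_le (by exact_mod_cast width_pos m)
  have ht0 : 0 < tol m := by unfold tol; positivity
  have ht : tol m ≤ 1 := by
    rw [tol, div_le_one (by positivity)]; exact one_le_pow₀ (by linarith)
  refine ⟨div_pos ht0 (by positivity), ?_⟩
  rw [margin, div_le_iff₀ (by positivity)]
  nlinarith [one_le_pow₀ (n := 2) h1]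

lemma eT_mem (r : ℕ) (h : 0 ≤ margin m) : (eT : E m) ∈ segSet (m := m) r := by
  cases r with
  | zero => exact ⟨1, by simp, by simp⟩
  | succ r => exact Or.inl (Or.inr ⟨1, by simp [h], by simp⟩)

lemma parts_pos (m : ℕ) : 0 < parts m := Nat.succ_pos _

/-- A copy of the next round is stretched less. -/
lemma copy_step (htf : TreeFalse) {D : ℝ} (hd : DimOk k m D) (r : ℕ) {X : Set (E m)}
    {f : E m → EuclideanSpace ℝ (Fin k)} (hf : Bilip D X f) {u : ℝ} (hu : 0 ≤ u) (huD : u ≤ D)
    (hc : CopyBound (segSet (m := m) r) X f (u + etaR m)) :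
    CopyBound (segSet (m := m) (r + 1)) X f u := by
  obtain ⟨hμ0, hμ4⟩ := margin_le hd.1
  set μ := margin m with hμ
  intro p σ U hσ hX
  by_contra hlt
  push Not at hlt
  set P := parts m with hP
  have hP0 : (0 : ℝ) < P := by exact_mod_cast parts_pos m
  set ψ := fun x : E m => p + σ • U x with hψ
  set h : ℝ := (1 - 2 * μ) / P with hh
  have hh0 : 0 < h := div_pos (by linarith) hP0
  set AW : ℝ := rootA m * width m with hAW
  have hAW1 : 1 ≤ AW :=
    one_le_mul_of_one_le_of_one_le root_aok.one_le (by exact_mod_cast width_pos m)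
  set v := f (ψ eT) - f (ψ 0) with hv
  have hvpos : u * σ < ‖v‖ := by simpa [hv, hψ] using hlt
  have hv0 : 0 < ‖v‖ := lt_of_le_of_lt (by positivity) hvpos
  set e := ‖v‖⁻¹ • v with he
  have hen : ‖e‖ ≤ 1 := by rw [he, norm_smul, norm_inv, norm_norm, inv_mul_cancel₀ hv0.ne']
  have hve : u * σ < ⟪v, e⟫ := by
    rw [he, inner_smul_right, real_inner_self_eq_norm_sq, sq, ← mul_assoc,
      inv_mul_cancel₀ hv0.ne', one_mul]
    exact hvpos
  have hψd : ∀ a b : ℝ, dist (ψ (a • eT)) (ψ (b • eT)) = σ * |a - b| := fun a b => by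
    rw [hψ, dist_eq_norm, add_sub_add_left_eq_sub, ← smul_sub, ← map_sub, ← sub_smul, norm_smul,
      LinearIsometryEquiv.norm_map, norm_smul, norm_eT, mul_one, Real.norm_eq_abs, Real.norm_eq_abs,
      abs_of_pos hσ]
  have hmem : ∀ a ∈ Icc 0 μ ∪ Icc (1 - μ) 1, ψ (a • eT) ∈ X := fun a ha => hX ⟨_,
    Or.inl (ha.elim (fun h => Or.inl ⟨a, h, rfl⟩) (fun h => Or.inr ⟨a, h, rfl⟩)), rfl⟩
  have hend : ∀ a b : ℝ, a ∈ Icc 0 μ ∪ Icc (1 - μ) 1 → b ∈ Icc 0 μ ∪ Icc (1 - μ) 1 →
      ⟪f (ψ (a • eT)) - f (ψ (b • eT)), e⟫ ≤ D * (σ * |a - b|) := fun a b ha hb => by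
    refine (real_inner_le_norm _ _).trans
      ((mul_le_of_le_one_right (norm_nonneg _) hen).trans ?_)
    rw [← hψd, ← dist_eq_norm]
    exact (hf _ (hmem a ha) _ (hmem b hb)).2
  set G : ℕ → ℝ := fun i => ⟪f (ψ (partStart m i • eT)), e⟫ with hG
  have hs0 : partStart m 0 = μ := by simp [partStart, hμ]
  have hsP : partStart m P = 1 - μ := by
    rw [partStart, ← hP, mul_div_cancel₀ _ hP0.ne']; ring
  have htot : u * σ - 2 * (D * (σ * μ)) < G P - G 0 := by
    have h1 := hend μ 0 (Or.inl ⟨hμ0.le, le_rfl⟩) (Or.inl ⟨le_rfl, hμ0.le⟩)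
    have h2 := hend 1 (1 - μ) (Or.inr ⟨by linarith, le_rfl⟩) (Or.inr ⟨le_rfl, by linarith⟩)
    rw [sub_zero, abs_of_pos hμ0] at h1
    rw [sub_sub_cancel, abs_of_pos hμ0] at h2
    simp only [one_smul, zero_smul, inner_sub_left] at h1 h2
    simp only [hG, hs0, hsP]
    rw [hv, inner_sub_left] at hve
    linarith
  obtain ⟨i, hi, hbig⟩ : ∃ i < P, (u * σ - 2 * (D * (σ * μ))) / P < G (i + 1) - G i := by
    by_contra hcon
    push Not at hcon
    have h1 : ∑ i ∈ Finset.range P, (G (i + 1) - G i) ≤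
        ∑ _i ∈ Finset.range P, (u * σ - 2 * (D * (σ * μ))) / P :=
      Finset.sum_le_sum fun i hi => hcon i (Finset.mem_range.1 hi)
    rw [Finset.sum_range_sub, Finset.sum_const, Finset.card_range, nsmul_eq_mul,
      mul_div_cancel₀ _ hP0.ne'] at h1
    linarith
  set κ : ℝ := h / AW with hκ
  have hκ0 : 0 < κ := div_pos hh0 (by linarith)
  set τ := σ * κ with hτ
  have hτ0 : 0 < τ := mul_pos hσ hκ0
  set place := fun x : E m => ψ (partMap i x) with hplace
  have hplace' : ∀ x, place x = p + σ • U (partStart m i • eT + κ • x) := fun x => rfl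
  have hpd : ∀ x y, dist (place x) (place y) = τ * dist x y := fun x y => by
    rw [hplace', hplace', dist_eq_norm, dist_eq_norm, add_sub_add_left_eq_sub, ← smul_sub,
      ← map_sub, add_sub_add_left_eq_sub, ← smul_sub, norm_smul, LinearIsometryEquiv.norm_map,
      norm_smul, Real.norm_eq_abs, Real.norm_eq_abs, abs_of_pos hσ, abs_of_pos hκ0, hτ, mul_assoc]
  have hpin : ∀ x ∈ treeSet (segSet r) (levels m) false (rootA m), place x ∈ X := fun x hx =>
    hX ⟨_, Or.inr (mem_iUnion.2 ⟨⟨i, hi⟩, x, hx, rfl⟩), rfl⟩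
  have hD1 : 1 ≤ D := hd.2.1
  refine htf k m D (segSet r) (levels m) false (rootA m) u 0 (4 * D * μ * AW)
    (fun x => τ⁻¹ • f (place x)) e hd root_aok (zero_mem r hμ0.le) (eT_mem r hμ0.le) ?_ ?_ hu huD
    hen (by positivity) ?_ le_rfl ?_ ?_ (fun _ => rfl) (fun h => absurd h (by simp))
  · intro x hx y hy
    have h1 := hf _ (hpin x hx) _ (hpin y hy)
    rw [hpd] at h1
    simp only [dist_smul₀, Real.norm_eq_abs, abs_inv, abs_of_pos hτ0]
    constructor
    · rw [le_inv_mul_iff₀ hτ0]; exact h1.1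
    · rw [inv_mul_le_iff₀ hτ0]; linarith [h1.2]
  · intro q ρ V hρ hsub
    have hcomp : ∀ x, place (q + ρ • V x) = place q + (τ * ρ) • (V.trans U) x := fun x => by
      simp only [hplace', map_add, map_smul, LinearIsometryEquiv.trans_apply, hτ]
      module
    have h1 := hc (place q) (τ * ρ) (V.trans U) (mul_pos hτ0 hρ) (by
      rintro _ ⟨x, hx, rfl⟩
      show place q + (τ * ρ) • (V.trans U) x ∈ X
      rw [← hcomp]
      exact hpin _ (hsub ⟨x, hx, rfl⟩))
    show ‖τ⁻¹ • f (place (q + ρ • V eT)) - τ⁻¹ • f (place q)‖ ≤ _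
    rw [hcomp, ← smul_sub, norm_smul, Real.norm_eq_abs, abs_inv, abs_of_pos hτ0,
      inv_mul_le_iff₀ hτ0]
    linarith
  · have ht0 : 0 ≤ tol m := by unfold tol; positivity
    have hm0 : (0 : ℝ) < m := by exact_mod_cast hd.1.pos
    have : 4 * D * μ * AW * (rootA m * width m) = tol m * (D / (2 * m)) := by
      rw [← hAW, hμ, margin, ← hAW]; field_simp; ring
    rw [this]
    refine mul_le_of_le_one_right ht0 ?_
    rw [div_le_one (by positivity)]
    linarith [hd.2.2.1]
  · have hn : (0 : ℝ) < nN m := by exact_mod_cast nN_pos m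
    have hm' : (100 : ℝ) ≤ m := by exact_mod_cast hd.1
    have h10 := hd.2.2.1
    rw [levels, gainDelta, Nat.cast_add, Nat.cast_mul, Nat.cast_pow, Nat.cast_one, mul_one_div,
      zero_pow two_ne_zero, zero_add, lt_div_iff₀ (by positivity)]
    nlinarith [mul_le_mul_of_nonneg_right (show D ^ 2 ≤ (m : ℝ) ^ 2 by nlinarith)
      (show (0 : ℝ) ≤ (m : ℝ) ^ 4 * nN m by positivity)]
  · have hlane : ∀ x : ℝ, wirePt (rootA m) false (.lane none 0) x = (rootA m * x : ℝ) • (eT : E m) :=
      fun x => by simp [wirePt, wireZ, wireL]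
    have e0 : place (wirePt (rootA m) false (.lane none 0) 0) = ψ (partStart m i • eT) := by
      simp [hlane, hplace, partMap]
    have e1 : place (wirePt (rootA m) false (.lane none 0) (width m)) =
        ψ (partStart m (i + 1) • eT) := by
      show ψ _ = _
      congr 1
      rw [hlane, partMap, smul_smul, ← add_smul, ← hAW, ← hP, ← hμ, ← hh, div_mul_cancel₀ _ (by linarith)]
      simp only [partStart, ← hμ, ← hP, ← hh, Nat.cast_add, Nat.cast_one]
      congr 1; ring
    show u * (rootA m * width m) - _ ≤ _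
    simp only [e0, e1]
    rw [← smul_sub, inner_smul_left, inner_sub_left, RCLike.conj_to_real,
      show ⟪f (ψ (partStart m (i + 1) • eT)), e⟫ - ⟪f (ψ (partStart m i • eT)), e⟫ =
        G (i + 1) - G i from rfl, ← hAW, le_inv_mul_iff₀ hτ0]
    refine le_trans ?_ hbig.le
    rw [le_div_iff₀ hP0, hτ, hκ, hh]
    have hAWne : AW ≠ 0 := by positivity
    have hPne : (P : ℝ) ≠ 0 := hP0.ne'
    field_simp
    nlinarith [mul_nonneg (mul_nonneg hσ.le hμ0.le) hu,
      mul_nonneg (mul_nonneg (mul_nonneg (le_trans zero_le_one hD1) hσ.le) hμ0.le)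
        (show (0 : ℝ) ≤ 1 - 4 * μ by linarith)]

/-- The stretch allowed after some rounds. -/
def cap (m : ℕ) (D : ℝ) (r : ℕ) : ℝ := max (D - r * etaR m) 0

lemma etaR_pos (hm : Big m) : 0 < etaR m := by
  have h0 : (0 : ℝ) < m := by exact_mod_cast hm.pos
  have hA : (0 : ℝ) < rootA m := lt_of_lt_of_le one_pos root_aok.one_le
  have hW : (0 : ℝ) < width m := by exact_mod_cast width_pos m
  have hn : (0 : ℝ) < nN m := by exact_mod_cast nN_pos m
  unfold etaR tol; positivity

lemma copy_all (htf : TreeFalse) {D : ℝ} (hd : DimOk k m D) {X : Set (E m)}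
    {f : E m → EuclideanSpace ℝ (Fin k)} (hf : Bilip D X f) :
    ∀ r, CopyBound (segSet (m := m) r) X f (cap m D r)
  | 0 => fun p σ U hσ hX => by
    have h0 : p + σ • U 0 ∈ X := hX ⟨0, ⟨0, by simp, by simp⟩, rfl⟩
    have h1 : p + σ • U eT ∈ X := hX ⟨eT, ⟨1, by simp, by simp⟩, rfl⟩
    have h := (hf _ h1 _ h0).2
    rw [map_zero, smul_zero, add_zero, dist_eq_norm, dist_eq_norm, add_sub_cancel_left, norm_smul,
      LinearIsometryEquiv.norm_map, norm_eT, mul_one, Real.norm_eq_abs, abs_of_pos hσ] at h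
    refine h.trans (mul_le_mul_of_nonneg_right ?_ hσ.le)
    simp [cap]
  | r + 1 => by
    have hη := etaR_pos hd.1
    refine copy_step htf hd r hf (le_max_right _ _)
      (max_le (sub_le_self _ (by positivity)) (le_trans zero_le_one hd.2.1)) ?_
    refine fun p σ U hσ hX => (copy_all htf hd hf r p σ U hσ hX).trans
      (mul_le_mul_of_nonneg_right ?_ hσ.le)
    refine max_le ?_ ?_
    · refine le_trans (le_of_eq ?_) (add_le_add (le_max_left _ _) le_rfl)
      push_cast; ring
    · exact add_nonneg (le_max_right _ _) hη.le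

end SegRound

open SegRound in
/-- Module `SegFalse`. -/
theorem segFalse_of (htf : TreeFalse) : SegFalse := by
  intro k m D f hd hf
  have hη := etaR_pos hd.1
  have hμ := (margin_le hd.1).1.le
  have h := copy_all htf hd hf (rounds m) 0 1 (LinearIsometryEquiv.refl ℝ _) one_pos
    (by rintro _ ⟨x, hx, rfl⟩; simpa using hx)
  have h1 := (hf _ (eT_mem (rounds m) hμ) _ (zero_mem (rounds m) hμ)).1
  rw [dist_zero_right, norm_eT, dist_eq_norm] at h1
  have hc : cap m D (rounds m) = 0 := by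
    refine max_eq_right (sub_nonpos.2 ?_)
    have h10 := hd.2.2.1
    have hD1 := hd.2.1
    have hR : (m : ℝ) / etaR m ≤ rounds m := by
      refine (Nat.le_ceil _).trans ?_
      exact_mod_cast Nat.le_succ _
    rw [div_le_iff₀ hη] at hR
    linarith
  simp [hc] at h
  simp [h] at h1
  linarith

end Vale.Agent.P208

end
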