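import Vale.Agent.P208.Basic

/-!
Excess lengths of the wires.
-/

noncomputable section

open Finset RealInnerProductSpace

namespace Vale.Agent.P208

variable {m : ℕ}

/-- length of a piece -/
def pieceLen (A : ℝ) (cell : Bool) (w : Wire m) (j : ℕ) : ℝ :=
  ‖wirePt A cell w ((j + 1 : ℕ) : ℝ) - wirePt A cell w j‖

/-- squared transversal steps of a wire -/
def transSq (cell : Bool) (w : Wire m) (j : ℕ) : ℝ :=
  (wireZ cell w ((j + 1 : ℕ) : ℝ) - wireZ cell w j) ^ 2 +
    ‖wireL w ((j + 1 : ℕ) : ℝ) - wireL w j‖ ^ 2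

lemma sum_trap_step_sq {a L R : ℕ} (hR : 0 < R) (hL : 2 * R ≤ L) (N : ℕ) :
    ∑ j ∈ range N, (trap (a : ℝ) L R ((j + 1 : ℕ) : ℝ) - trap (a : ℝ) L R j) ^ 2 ≤
      2 / (R : ℝ) := by
  have hR' : (0 : ℝ) < R := by exact_mod_cast hR
  set T : Finset ℕ := Finset.Ico a (a + R) ∪ Finset.Ico (a + L - R) (a + L) with hT
  have step : ∀ j : ℕ, (trap (a : ℝ) L R ((j + 1 : ℕ) : ℝ) - trap (a : ℝ) L R j) ^ 2 ≤
      if j ∈ T then 1 / (R : ℝ) ^ 2 else 0 := by
    intro j
    split
    next h =>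
      have := trap_lipschitz (a := (a : ℝ)) (L := (L : ℝ)) hR' ((j + 1 : ℕ) : ℝ) j
      rw [show (((j + 1 : ℕ) : ℝ) - j) = 1 by push_cast; ring, abs_one] at this
      rw [← sq_abs, ← one_div_pow]
      exact pow_le_pow_left₀ (abs_nonneg _) this 2
    next h =>
      simp only [hT, Finset.mem_union, Finset.mem_Ico, not_or, not_and_or, not_le, not_lt] at h
      have key : (j + 1 ≤ a) ∨ (a + R ≤ j ∧ j + 1 ≤ a + L - R) ∨ a + L ≤ j := by omega
      rcases key with h' | ⟨h1, h2⟩ | h'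
      · rw [trap_eq_zero hR' (Or.inl (by exact_mod_cast h')),
          trap_eq_zero hR' (Or.inl (by exact_mod_cast (by omega : j ≤ a)))]
        simp
      · have e1 : ((a : ℝ) + R) ≤ j := by exact_mod_cast h1
        have e2 : ((j + 1 : ℕ) : ℝ) ≤ (a : ℝ) + L - R := by
          have h3 : j + 1 + R ≤ a + L := by omega
          have h4 : ((j + 1 : ℕ) : ℝ) + R ≤ (a : ℝ) + L := by exact_mod_cast h3
          linarith
        push_cast at e2 ⊢
        rw [trap_eq_one hR' (by linarith) e2, trap_eq_one hR' e1 (by linarith)]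
        simp
      · rw [trap_eq_zero hR' (Or.inr (by exact_mod_cast (by omega : a + L ≤ j + 1))),
          trap_eq_zero hR' (Or.inr (by exact_mod_cast h'))]
        simp
  refine (Finset.sum_le_sum fun j _ => step j).trans ?_
  rw [← Finset.sum_filter, Finset.sum_const, nsmul_eq_mul]
  have hc : ((Finset.filter (fun j => j ∈ T) (range N)).card : ℝ) ≤ 2 * R := by
    have h1 : (Finset.filter (fun j => j ∈ T) (range N)).card ≤ T.card :=
      Finset.card_le_card fun x hx => (Finset.mem_filter.1 hx).2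
    have h2 : T.card ≤ 2 * R := by
      refine (Finset.card_union_le _ _).trans ?_
      simp only [Nat.card_Ico]; omega
    exact_mod_cast h1.trans h2
  calc _ ≤ (2 * R : ℝ) * (1 / (R : ℝ) ^ 2) := by gcongr
    _ = 2 / (R : ℝ) := by field_simp

lemma pieceLen_nonneg (A : ℝ) (cell : Bool) (w : Wire m) (j : ℕ) : 0 ≤ pieceLen A cell w j :=
  norm_nonneg _

lemma inner_eT_wireL (w : Wire m) (x : ℝ) : ⟪(eT : E m), wireL w x⟫ = 0 := by
  rw [inner_eT]; exact wireL_t w x

lemma inner_eZ_wireL (w : Wire m) (x : ℝ) : ⟪(eZ : E m), wireL w x⟫ = 0 := by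
  rcases w with ⟨_ | j, i⟩ | j | _ <;>
    simp [wireL, inner_smul_right, eZ, eL, EuclideanSpace.inner_single_left]

lemma pieceLen_sq (A : ℝ) (cell : Bool) (w : Wire m) (j : ℕ) :
    pieceLen A cell w j ^ 2 = A ^ 2 + transSq cell w j := by
  set dz := wireZ cell w ((j + 1 : ℕ) : ℝ) - wireZ cell w j
  have e : wirePt A cell w ((j + 1 : ℕ) : ℝ) - wirePt A cell w j =
      A • eT + (dz • eZ + (wireL w ((j + 1 : ℕ) : ℝ) - wireL w j)) := by
    simp only [wirePt, dz]; push_cast; module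
  have hz : ⟪(eT : E m), eZ⟫ = 0 := by rw [inner_eT]; exact eZ_t
  rw [pieceLen, e, norm_add_sq_real, norm_add_sq_real]
  rw [inner_smul_left, inner_add_right, inner_smul_right, inner_sub_right, hz, inner_eT_wireL,
    inner_eT_wireL, inner_smul_left, inner_sub_right, inner_eZ_wireL, inner_eZ_wireL]
  simp [transSq, norm_smul, dz]

lemma pieceLen_le {A : ℝ} (hA : 0 < A) (cell : Bool) (w : Wire m) (j : ℕ) :
    pieceLen A cell w j ≤ A + transSq cell w j / (2 * A) := by
  have h := pieceLen_sq A cell w j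
  have h0 := pieceLen_nonneg A cell w j
  have ht : 0 ≤ transSq cell w j := by unfold transSq; positivity
  have e : A + transSq cell w j / (2 * A) = (2 * A ^ 2 + transSq cell w j) / (2 * A) := by
    field_simp
  rw [e, le_div_iff₀ (by positivity)]
  nlinarith [sq_nonneg (pieceLen A cell w j - A)]

lemma sum_pieceLen_le {A : ℝ} (hA : 0 < A) (cell : Bool) (w : Wire m) {B : ℝ}
    (hB : ∑ j ∈ range (width m), transSq cell w j ≤ B) :
    ∑ j ∈ range (width m), pieceLen A cell w j ≤ A * width m + B / (2 * A) := by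
  refine (Finset.sum_le_sum fun j _ => pieceLen_le hA cell w j).trans ?_
  rw [Finset.sum_add_distrib, Finset.sum_const, Finset.card_range, nsmul_eq_mul, ← Finset.sum_div]
  have : (∑ j ∈ range (width m), transSq cell w j) / (2 * A) ≤ B / (2 * A) :=
    div_le_div_of_nonneg_right hB (by positivity)
  linarith

lemma sum_tau0_step (h : Big m) :
    ∑ j ∈ range (width m), (tau0 m ((j + 1 : ℕ) : ℝ) - tau0 m j) ^ 2 ≤ 2 / (r0 m : ℝ) := by
  have := sum_trap_step_sq (a := 0) (L := width m) (r0_pos h) (by unfold width; omega) (width m)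
  simpa [tau0] using this

lemma sum_tauS_step (h : Big m) (s : Sheet m) :
    ∑ j ∈ range (width m), (tauS s ((j + 1 : ℕ) : ℝ) - tauS s j) ^ 2 ≤ 2 / (r1 m : ℝ) :=
  sum_trap_step_sq (r1_pos h) (by unfold slotLen; omega) (width m)

lemma sum_tauRow_step (h : Big m) :
    ∑ j ∈ range (width m), (tauRow m ((j + 1 : ℕ) : ℝ) - tauRow m j) ^ 2 ≤ 2 / (r2 m : ℝ) :=
  sum_trap_step_sq (r2_pos h) (by unfold groundLen; omega) (width m)

/-- excess allowance of a wire -/
def excess (cell : Bool) : Wire m → ℝ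
  | .lane none i => (i.val : ℝ) ^ 2 / r0 m
  | .lane (some _) i => (i.val : ℝ) ^ 2 / r0 m + 1 / r1 m
  | .row j => (rowIdx j : ℝ) ^ 2 / r0 m + 1 / r2 m
  | .top => if cell then 0 else (nN m : ℝ) ^ 2 / r0 m

lemma sum_transSq_le (h : Big m) (cell : Bool) (w : Wire m) :
    ∑ j ∈ range (width m), transSq cell w j ≤ 2 * excess cell w := by
  have h0 := sum_tau0_step h
  have scaled : ∀ c : ℝ, ∑ j ∈ range (width m),
      (c * tau0 m ((j + 1 : ℕ) : ℝ) - c * tau0 m j) ^ 2 ≤ 2 * (c ^ 2 / r0 m) := by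
    intro c
    simp_rw [← mul_sub, mul_pow]
    rw [← Finset.mul_sum]
    calc _ ≤ c ^ 2 * (2 / (r0 m : ℝ)) := mul_le_mul_of_nonneg_left h0 (sq_nonneg c)
      _ = _ := by ring
  rcases w with ⟨_ | p, i⟩ | p | _
  · simpa [transSq, wireZ, wireL, excess] using scaled i.val
  · have hb : bProf m i.val ^ 2 ≤ 1 := pow_le_one₀ (bProf_nonneg _ _) (bProf_le_one _ _)
    have e : ∀ j : ℕ, ‖wireL (Wire.lane (some p) i) ((j + 1 : ℕ) : ℝ) -
        wireL (Wire.lane (some p) i) j‖ ^ 2 =
        bProf m i.val ^ 2 * (tauS (some p) ((j + 1 : ℕ) : ℝ) - tauS (some p) j) ^ 2 := by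
      intro j
      simp only [wireL]
      rw [← sub_smul, ← mul_sub, norm_smul, norm_eL, mul_one, Real.norm_eq_abs, sq_abs, mul_pow]
    simp only [transSq, e, wireZ, excess, Finset.sum_add_distrib, ← Finset.mul_sum, mul_add]
    refine add_le_add (scaled i.val) ?_
    calc _ ≤ 1 * (2 / (r1 m : ℝ)) := mul_le_mul hb (sum_tauS_step h _)
          (Finset.sum_nonneg fun _ _ => sq_nonneg _) zero_le_one
      _ = _ := by ring
  · have e : ∀ j : ℕ, ‖wireL (Wire.row p) ((j + 1 : ℕ) : ℝ) - wireL (Wire.row p) j‖ ^ 2 =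
        (tauRow m ((j + 1 : ℕ) : ℝ) - tauRow m j) ^ 2 := by
      intro j
      simp only [wireL]
      rw [← sub_smul, norm_smul, norm_eL, mul_one, Real.norm_eq_abs, sq_abs]
    simp only [transSq, e, wireZ, excess, Finset.sum_add_distrib, mul_add]
    refine add_le_add (scaled (rowIdx p)) ?_
    calc _ ≤ (2 / (r2 m : ℝ)) := sum_tauRow_step h
      _ = _ := by ring
  · cases cell
    · simpa [transSq, wireZ, wireL, excess] using scaled (nN m)
    · simp [transSq, wireZ, wireL, excess]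

lemma sum_pieceLen_excess (h : Big m) {A : ℝ} (hA : 0 < A) (cell : Bool) (w : Wire m) :
    ∑ j ∈ range (width m), pieceLen A cell w j ≤ A * width m + excess cell w / A := by
  refine (sum_pieceLen_le hA cell w (sum_transSq_le h cell w)).trans (le_of_eq ?_)
  field_simp

lemma le_pieceLen (A : ℝ) (cell : Bool) (w : Wire m) (j : ℕ) :
    A ≤ pieceLen A cell w j := by
  have h := pieceLen_sq A cell w j
  have ht : 0 ≤ transSq cell w j := by unfold transSq; positivity
  nlinarith [pieceLen_nonneg A cell w j]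

end Vale.Agent.P208

end
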