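import Vale.Agent.P208.Embed.Edge
import Vale.Agent.P208.Embed.Excess

/-!
Rigidity of the straight blocks of the wires, and the size of its error.
-/

noncomputable section

open Finset RealInnerProductSpace

namespace Vale.Agent.P208

variable {m k : ℕ}

lemma block_inner {F : Type*} [NormedAddCommGroup F] [InnerProductSpace ℝ F] (x : ℕ → F)
    (len : ℕ → ℝ) {N a b : ℕ} (hab : a ≤ b) (hb : b ≤ N) {u η ε T : ℝ} {e : F} (hη : 0 ≤ η)
    (he : ‖e‖ ≤ 1) (hlen : ∀ i < N, 0 ≤ len i)
    (hstep : ∀ i < N, ‖x (i + 1) - x i‖ ≤ (u + η) * len i)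
    (hT : u * T - ε ≤ ⟪x N - x 0, e⟫) :
    u * (∑ i ∈ Ico a b, len i) - (ε + (u + η) * ((∑ i ∈ range N, len i) - T) + η * T) ≤
      ⟪x b - x a, e⟫ := by
  have tel : ∀ p q, p ≤ q → q ≤ N → ⟪x q - x p, e⟫ ≤ (u + η) * ∑ i ∈ Ico p q, len i := by
    intro p q hpq hq
    rw [← Finset.sum_Ico_sub x hpq, sum_inner, Finset.mul_sum]
    refine Finset.sum_le_sum fun i hi => ?_
    refine (real_inner_le_norm _ _).trans ((mul_le_of_le_one_right (norm_nonneg _) he).trans ?_)
    exact hstep i (lt_of_lt_of_le (Finset.mem_Ico.1 hi).2 hq)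
  have h1 := tel 0 a (Nat.zero_le _) (hab.trans hb)
  have h2 := tel b N hb le_rfl
  have hsum : (∑ i ∈ Ico 0 a, len i) + (∑ i ∈ Ico a b, len i) + (∑ i ∈ Ico b N, len i) =
      ∑ i ∈ range N, len i := by
    rw [Finset.sum_Ico_consecutive _ (Nat.zero_le _) hab,
      Finset.sum_Ico_consecutive _ (Nat.zero_le _) hb, Finset.range_eq_Ico]
  have hsplit : x N - x 0 = (x a - x 0) + (x b - x a) + (x N - x b) := by abel
  rw [hsplit, inner_add_left, inner_add_left] at hT
  have hnn : 0 ≤ η * ∑ i ∈ Ico a b, len i := mul_nonneg hη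
    (Finset.sum_nonneg fun i hi => hlen i (lt_of_lt_of_le (Finset.mem_Ico.1 hi).2 hb))
  rw [← hsum]
  linarith

/-- the value of a node, with the motion along the axis removed -/
def nodeVal (f : E m → EuclideanSpace ℝ (Fin k)) (A u : ℝ) (cell : Bool)
    (e : EuclideanSpace ℝ (Fin k)) (w : Wire m) (j : ℕ) : EuclideanSpace ℝ (Fin k) :=
  f (wirePt A cell w j) - (u * A * j) • e

/-- a wire keeps the transversal coordinates on the closed interval -/
def StraightOn (cell : Bool) (w : Wire m) (a b : ℕ) : Prop :=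
  ∀ j : ℕ, a ≤ j → j ≤ b → wireZ cell w j = wireZ cell w a ∧ wireL w (j : ℝ) = wireL w (a : ℝ)

lemma StraightOn.len_eq {A : ℝ} (hA : 0 ≤ A) {cell : Bool} {w : Wire m} {a b j : ℕ}
    (h : StraightOn cell w a b) (h1 : a ≤ j) (h2 : j < b) : pieceLen A cell w j = A := by
  have e := pieceLen_sq A cell w j
  have e1 := h j h1 h2.le
  have e2 := h (j + 1) (by omega) h2
  rw [transSq, e1.1, e1.2, e2.1, e2.2, sub_self, sub_self, norm_zero] at e
  nlinarith [pieceLen_nonneg A cell w j]

/-- the allowance of the error of rigidity -/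
def muTol (m : ℕ) : ℝ := 1 / (m : ℝ) ^ 20

lemma muTol_nonneg (m : ℕ) : 0 ≤ muTol m := by unfold muTol; positivity

lemma real_le_of_big {D : ℝ} (h : DimOk k m D) : D ≤ m ∧ (100 : ℝ) ≤ m := by
  refine ⟨by linarith [h.2.2.1, h.2.1], by exact_mod_cast h.1⟩

lemma etaR_bound (hB : Big m) {l : ℕ} {A : ℝ} (hA : AOk m l A) :
    0 ≤ etaR m ∧ etaR m ≤ 1 ∧
      etaR m * (A * width m) ^ 2 * (nN m : ℝ) ^ 2 * m ≤ tol m := by
  have hW : (1 : ℝ) ≤ width m := by exact_mod_cast width_pos m
  have hn : (1 : ℝ) ≤ nN m := by exact_mod_cast nN_pos m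
  have hm : (1 : ℝ) ≤ m := by exact_mod_cast hB.pos
  have hA1 := hA.one_le
  have hR1 : (1 : ℝ) ≤ rootA m := hA1.trans hA.2
  have htol : tol m ≤ 1 := by
    unfold tol; exact div_le_one_of_le₀ (one_le_pow₀ hm) (by positivity)
  have htol0 : 0 ≤ tol m := by unfold tol; positivity
  have hden : 1 ≤ (rootA m * width m) ^ 2 * (nN m : ℝ) ^ 2 * m :=
    one_le_mul_of_one_le_of_one_le (one_le_mul_of_one_le_of_one_le
      (one_le_pow₀ (one_le_mul_of_one_le_of_one_le hR1 hW)) (one_le_pow₀ hn)) hm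
  refine ⟨by unfold etaR; positivity, ?_, ?_⟩
  · exact div_le_one_of_le₀ (htol.trans hden) (by linarith)
  · have : (A * width m) ^ 2 * (nN m : ℝ) ^ 2 * m ≤
        (rootA m * width m) ^ 2 * (nN m : ℝ) ^ 2 * m := by
      have := hA.2
      gcongr
    calc etaR m * (A * width m) ^ 2 * (nN m : ℝ) ^ 2 * m
        = etaR m * ((A * width m) ^ 2 * (nN m : ℝ) ^ 2 * m) := by ring
      _ ≤ etaR m * ((rootA m * width m) ^ 2 * (nN m : ℝ) ^ 2 * m) :=
          mul_le_mul_of_nonneg_left this (by unfold etaR; positivity)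
      _ = tol m := by
          unfold etaR
          rw [div_mul_cancel₀]
          linarith

/-- the error of one straight block is tiny -/
lemma block_close (hr : BlockRigid) {D u ε A : ℝ} {l : ℕ} {cell : Bool}
    {f : E m → EuclideanSpace ℝ (Fin k)} {e : EuclideanSpace ℝ (Fin k)} {S : Set (E m)}
    (hD : DimOk k m D) (hA : AOk m l A) (hC : CopyBound S (treeSet S l cell A) f (u + etaR m))
    (hu : 0 ≤ u) (huD : u ≤ D) (he : ‖e‖ ≤ 1) (hε : 0 ≤ ε) (hεA : ε * (A * width m) ≤ tol m)
    (w : Wire m)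
    (hdef : u * (A * width m) - ε ≤
      ⟪f (wirePt A cell w (width m : ℝ)) - f (wirePt A cell w ((0 : ℕ) : ℝ)), e⟫)
    {a b : ℕ} (hab : a ≤ b) (hb : b ≤ width m) (hstr : StraightOn cell w a b)
    (hexc : excess cell w * ((b - a : ℕ) : ℝ) ≤ 4 / (lam m : ℝ)) :
    ‖nodeVal f A u cell e w b - nodeVal f A u cell e w a‖ ≤ muTol m := by
  have hB := hD.1
  obtain ⟨hDm, hm100⟩ := real_le_of_big hD
  have hA0 : 0 < A := by linarith [hA.one_le]
  obtain ⟨hη0, hη1, hη2⟩ := etaR_bound hB hA
  have hblock : ∑ i ∈ Ico a b, pieceLen A cell w i = A * ((b - a : ℕ) : ℝ) := by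
    rw [Finset.sum_congr rfl (fun i hi => hstr.len_eq hA0.le (Finset.mem_Ico.1 hi).1
      (Finset.mem_Ico.1 hi).2), Finset.sum_const, Nat.card_Ico, nsmul_eq_mul, mul_comm]
  have hT : A * width m ≤ ∑ i ∈ range (width m), pieceLen A cell w i := by
    have := Finset.card_nsmul_le_sum (range (width m)) _ A (fun i _ => le_pieceLen A cell w i)
    rw [Finset.card_range, nsmul_eq_mul] at this
    linarith
  have h := hr k (width m) a b (fun i : ℕ => f (wirePt A cell w i)) (pieceLen A cell w) u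
    (etaR m) ε (A * width m) e hab hb hu hη0 hε he (fun i _ => pieceLen_nonneg A cell w i)
    (fun i hi => piece_bound hB l cell A f hA0 hC w i hi) hdef hT
  rw [hblock] at h
  have hval : nodeVal f A u cell e w b - nodeVal f A u cell e w a =
      f (wirePt A cell w b) - f (wirePt A cell w a) - (u * (A * ((b - a : ℕ) : ℝ))) • e := by
    simp only [nodeVal, Nat.cast_sub hab]; module
  rw [← hval] at h
  refine (pow_le_pow_iff_left₀ (norm_nonneg _) (muTol_nonneg m) two_ne_zero).1 (h.trans ?_)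
  set L := ((b - a : ℕ) : ℝ) with hL
  have hL0 : 0 ≤ L := Nat.cast_nonneg _
  have hLW : L ≤ width m := by rw [hL]; exact_mod_cast (by omega : b - a ≤ width m)
  have hW : (0 : ℝ) ≤ width m := Nat.cast_nonneg _
  have hexc0 : (∑ i ∈ range (width m), pieceLen A cell w i) - A * width m ≤
      excess cell w / A := by linarith [sum_pieceLen_excess hB hA0 cell w]
  have t1 : ε * (A * L) ≤ tol m := le_trans (by gcongr) hεA
  have t2 : (u + etaR m) * ((∑ i ∈ range (width m), pieceLen A cell w i) - A * width m) * (A * L)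
      ≤ (D + 1) * (4 / (lam m : ℝ)) := by
    calc _ ≤ (D + 1) * (excess cell w / A) * (A * L) := by
          gcongr <;> linarith
      _ = (D + 1) * (excess cell w * L) := by field_simp
      _ ≤ _ := mul_le_mul_of_nonneg_left hexc (by linarith [hD.2.1])
  have hn : (1 : ℝ) ≤ (nN m : ℝ) ^ 2 * m :=
    one_le_mul_of_one_le_of_one_le (one_le_pow₀ (by exact_mod_cast nN_pos m)) (by linarith)
  have t3 : etaR m * (A * width m) ^ 2 ≤ tol m := by
    refine le_trans ?_ hη2
    rw [mul_assoc (etaR m * (A * width m) ^ 2)]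
    exact le_mul_of_one_le_right (by positivity) hn
  have t3a : etaR m * (A * width m) * (A * L) ≤ tol m :=
    le_trans (le_of_eq_of_le (by ring) (by gcongr : etaR m * (A * width m) * (A * L) ≤
      etaR m * (A * width m) * (A * width m))) (by rw [mul_assoc, ← sq]; exact t3)
  have hD2 : 0 ≤ 2 * D + 1 := by linarith [hD.2.1]
  have t4 : (2 * u * etaR m + etaR m ^ 2) * (A * L) ^ 2 ≤ (2 * D + 1) * tol m := by
    calc _ ≤ (2 * D + 1) * (etaR m * (A * width m) ^ 2) := by
          rw [show (2 * u * etaR m + etaR m ^ 2) = (2 * u + etaR m) * etaR m by ring, mul_assoc]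
          gcongr
      _ ≤ _ := mul_le_mul_of_nonneg_left t3 (by linarith [hD.2.1])
  have key : 2 * u * (A * L) *
        (ε + (u + etaR m) * ((∑ i ∈ range (width m), pieceLen A cell w i) - A * width m) +
          etaR m * (A * width m)) +
      (2 * u * etaR m + etaR m ^ 2) * (A * L) ^ 2 ≤
      2 * D * (2 * tol m + (D + 1) * (4 / (lam m : ℝ))) + (2 * D + 1) * tol m := by
    refine add_le_add ?_ t4
    rw [mul_assoc]
    refine mul_le_mul (by linarith) ?_ ?_ (by linarith [hD.2.1])
    · calc _ = ε * (A * L) + (u + etaR m) *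
            ((∑ i ∈ range (width m), pieceLen A cell w i) - A * width m) * (A * L) +
            etaR m * (A * width m) * (A * L) := by ring
        _ ≤ _ := by linarith
    · have : 0 ≤ (∑ i ∈ range (width m), pieceLen A cell w i) - A * width m := by linarith
      positivity
  refine key.trans ?_
  have hm0 : (0 : ℝ) < m := by linarith
  have e1 : tol m = muTol m ^ 2 / (m : ℝ) ^ 10 := by
    unfold tol muTol; field_simp
  have e2 : (4 : ℝ) / (lam m : ℝ) ≤ tol m := by
    unfold tol lam; push_cast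
    rw [div_le_div_iff₀ (by positivity) (by positivity), one_mul]
    calc 4 * (m : ℝ) ^ 50 ≤ (m : ℝ) ^ 40 * (m : ℝ) ^ 50 := by
          gcongr
          linarith [le_self_pow₀ (a := (m : ℝ)) (by linarith) (n := 40) (by norm_num)]
      _ = _ := by rw [← pow_add]
  have htol0 : 0 ≤ tol m := by unfold tol; positivity
  have hmm : (D + 1) * (4 / (lam m : ℝ)) ≤ (D + 1) * tol m :=
    mul_le_mul_of_nonneg_left e2 (by linarith [hD.2.1])
  calc _ ≤ 2 * D * (2 * tol m + (D + 1) * tol m) + (2 * D + 1) * tol m := by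
        gcongr; linarith [hD.2.1]
    _ ≤ (m : ℝ) ^ 10 * tol m := by
        have : 2 * D * (2 + (D + 1)) + (2 * D + 1) ≤ (m : ℝ) ^ 10 := by
          have h10 : (m : ℝ) ^ 3 ≤ (m : ℝ) ^ 10 := pow_le_pow_right₀ (by linarith) (by norm_num)
          nlinarith [hD.2.1, pow_two_nonneg (m : ℝ)]
        calc _ = (2 * D * (2 + (D + 1)) + (2 * D + 1)) * tol m := by ring
          _ ≤ _ := mul_le_mul_of_nonneg_right this htol0
    _ = muTol m ^ 2 := by rw [e1]; field_simp

end Vale.Agent.P208

end
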