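import Vale.Agent.P208.Basic

/-!
Pulling maps back along similarities, nodes of gadgets, and the upper bound on every piece.
-/

noncomputable section

open Finset RealInnerProductSpace

namespace Vale.Agent.P208

variable {m k : ℕ}

/-- similarity with the given data -/
def simMap (p : E m) (σ : ℝ) (U : E m ≃ₗᵢ[ℝ] E m) (x : E m) : E m := p + σ • U x

/-- pull back along a similarity, rescaled -/
def pull (p : E m) (σ : ℝ) (U : E m ≃ₗᵢ[ℝ] E m) (f : E m → EuclideanSpace ℝ (Fin k))
    (x : E m) : EuclideanSpace ℝ (Fin k) := σ⁻¹ • f (simMap p σ U x)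

lemma simMap_comp (p p' : E m) (σ σ' : ℝ) (U U' : E m ≃ₗᵢ[ℝ] E m) (x : E m) :
    simMap p σ U (simMap p' σ' U' x) = simMap (simMap p σ U p') (σ * σ') (U'.trans U) x := by
  simp [simMap, map_add, smul_add, smul_smul, add_assoc]

lemma dist_simMap (p : E m) {σ : ℝ} (hσ : 0 < σ) (U : E m ≃ₗᵢ[ℝ] E m) (x y : E m) :
    dist (simMap p σ U x) (simMap p σ U y) = σ * dist x y := by
  simp [simMap, dist_smul₀, abs_of_pos hσ]

lemma norm_pull (p : E m) {σ : ℝ} (hσ : 0 < σ) (U : E m ≃ₗᵢ[ℝ] E m)
    (f : E m → EuclideanSpace ℝ (Fin k)) (x y : E m) :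
    ‖pull p σ U f x - pull p σ U f y‖ = σ⁻¹ * ‖f (simMap p σ U x) - f (simMap p σ U y)‖ := by
  unfold pull
  rw [← smul_sub, norm_smul, norm_inv, Real.norm_of_nonneg hσ.le]

lemma pull_bilip {D : ℝ} {p : E m} {σ : ℝ} (hσ : 0 < σ) {U : E m ≃ₗᵢ[ℝ] E m} {X Y : Set (E m)}
    {f : E m → EuclideanSpace ℝ (Fin k)} (hf : Bilip D X f) (hY : simMap p σ U '' Y ⊆ X) :
    Bilip D Y (pull p σ U f) := by
  intro x hx y hy
  have h := hf _ (hY ⟨x, hx, rfl⟩) _ (hY ⟨y, hy, rfl⟩)
  rw [dist_simMap p hσ, dist_eq_norm (f _)] at h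
  rw [dist_eq_norm (pull p σ U f x), norm_pull p hσ, inv_mul_eq_div, le_div_iff₀ hσ,
    div_le_iff₀ hσ]
  constructor <;> linarith [h.1, h.2]

lemma pull_copy {p : E m} {σ : ℝ} (hσ : 0 < σ) {U : E m ≃ₗᵢ[ℝ] E m} {S X Y : Set (E m)}
    {f : E m → EuclideanSpace ℝ (Fin k)} {c : ℝ} (hf : CopyBound S X f c)
    (hY : simMap p σ U '' Y ⊆ X) : CopyBound S Y (pull p σ U f) c := by
  intro p' σ' U' hσ' hsub
  have h1 : (fun x => simMap p σ U p' + (σ * σ') • (U'.trans U) x) '' S ⊆ X := by
    rintro _ ⟨x, hx, rfl⟩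
    exact hY ⟨simMap p' σ' U' x, hsub ⟨x, hx, rfl⟩, simMap_comp _ _ _ _ _ _ _⟩
  have h2 := hf _ _ _ (mul_pos hσ hσ') h1
  rw [norm_pull p hσ]
  have e : simMap p σ U (p' + σ' • U' eT) = simMap p σ U p' + (σ * σ') • (U'.trans U) eT :=
    simMap_comp p p' σ σ' U U' eT
  rw [e, inv_mul_eq_div, div_le_iff₀ hσ]
  linarith

/-! ### Rung children -/

/-- scale of a rung child -/
def rungScale (A : ℝ) (cell : Bool) (s : Sheet m) (i : Fin (nN m)) : ℝ :=
  rungLen A cell s i / nN m

/-- rotation of a rung child -/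
def rungRot (A : ℝ) (cell : Bool) (s : Sheet m) (i : Fin (nN m)) : E m ≃ₗᵢ[ℝ] E m :=
  refl eZ (dirU (rungLo A cell s i) (rungHi A cell s i))

lemma rungMap_eq (A : ℝ) (cell : Bool) (s : Sheet m) (i : Fin (nN m)) :
    rungMap A cell s i = simMap (rungLo A cell s i) (rungScale A cell s i) (rungRot A cell s i) :=
  rfl

lemma rungScale_pos (h : Big m) (A : ℝ) (cell : Bool) (s : Sheet m) (i : Fin (nN m)) :
    0 < rungScale A cell s i :=
  div_pos (by linarith [one_le_rungLen h A cell s i]) (by exact_mod_cast nN_pos m)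

lemma lane_zero_pt (A : ℝ) (cell : Bool) (x : ℝ) :
    wirePt A cell (.lane none 0) x = ((A * x) • eT : E m) := by
  simp [wirePt, wireZ, wireL]

lemma top_pt (A : ℝ) (x : ℝ) :
    wirePt A true .top x = ((A * x) • eT + (nN m : ℝ) • eZ : E m) := by
  simp [wirePt, wireZ, wireL]

lemma rungMap_lane0 (h : Big m) (A : ℝ) (cell : Bool) (s : Sheet m) (i : Fin (nN m)) (x : ℝ) :
    rungMap A cell s i (wirePt (childA A cell s i) true (.lane none 0) x) =
      rungLo A cell s i + (rungScale A cell s i * (childA A cell s i * x)) • eT := by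
  rw [lane_zero_pt, rungMap, map_smul, rungU_eT h, smul_smul, rungScale]

lemma rungMap_top (h : Big m) (A : ℝ) (cell : Bool) (s : Sheet m) (i : Fin (nN m)) (x : ℝ) :
    rungMap A cell s i (wirePt (childA A cell s i) true .top x) =
      rungHi A cell s i + (rungScale A cell s i * (childA A cell s i * x)) • eT := by
  have hn : (nN m : ℝ) ≠ 0 := by exact_mod_cast (nN_pos m).ne'
  have e : rungHi A cell s i = rungLo A cell s i + (eZ + rungLabel s i) := by
    rw [← rungHi_sub_rungLo h A cell s i]; abel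
  rw [top_pt, rungMap, map_add, map_smul, map_smul, rungU_eT h, smul_add, smul_smul, smul_smul,
    div_mul_cancel₀ _ hn, rungU_eZ h, e, rungScale]
  abel

lemma window_shift (h : Big m) (A : ℝ) (cell : Bool) (s : Sheet m) (i : Fin (nN m))
    (i' : Fin (nN m + 1)) :
    wirePt A cell (.lane s i') ((winStart s i + 1 : ℕ) : ℝ) =
      wirePt A cell (.lane s i') (winStart s i) + A • eT := by
  obtain ⟨a0, a1, -⟩ := window_profiles h s i (c := 1) ⟨zero_le_one, le_rfl⟩
  obtain ⟨b0, b1, -⟩ := window_profiles h s i (c := 0) ⟨le_rfl, zero_le_one⟩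
  rw [add_zero] at b0 b1
  have e : ((winStart s i + 1 : ℕ) : ℝ) = winStart s i + 1 := by norm_num
  rw [e]
  rcases s with _ | j
  · simp only [wirePt, wireZ, wireL, a0, b0]; module
  · simp only [wirePt, wireZ, wireL, a0, b0, a1, b1]; module

lemma rungMap_lane0_zero (h : Big m) (A : ℝ) (cell : Bool) (s : Sheet m) (i : Fin (nN m)) :
    rungMap A cell s i (wirePt (childA A cell s i) true (.lane none 0) ((0 : ℕ) : ℝ)) =
      wirePt A cell (.lane s i.castSucc) (winStart s i) := by
  rw [rungMap_lane0 h]; simp [rungLo]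

lemma rungMap_top_zero (h : Big m) (A : ℝ) (cell : Bool) (s : Sheet m) (i : Fin (nN m)) :
    rungMap A cell s i (wirePt (childA A cell s i) true .top ((0 : ℕ) : ℝ)) =
      wirePt A cell (.lane s i.succ) (winStart s i) := by
  rw [rungMap_top h]; simp [rungHi]

lemma rungMap_lane0_width (h : Big m) (A : ℝ) (cell : Bool) (s : Sheet m) (i : Fin (nN m)) :
    rungMap A cell s i (wirePt (childA A cell s i) true (.lane none 0) (width m : ℝ)) =
      wirePt A cell (.lane s i.castSucc) ((winStart s i + 1 : ℕ) : ℝ) := by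
  rw [rungMap_lane0 h, window_shift h, rungScale, mul_comm (rungLen A cell s i / nN m),
    width_mul_childA h]
  rfl

lemma rungMap_top_width (h : Big m) (A : ℝ) (cell : Bool) (s : Sheet m) (i : Fin (nN m)) :
    rungMap A cell s i (wirePt (childA A cell s i) true .top (width m : ℝ)) =
      wirePt A cell (.lane s i.succ) ((winStart s i + 1 : ℕ) : ℝ) := by
  rw [rungMap_top h, window_shift h, rungScale, mul_comm (rungLen A cell s i / nN m),
    width_mul_childA h]
  rfl

lemma child_subset (S : Set (E m)) (l : ℕ) (A : ℝ) (cell : Bool) (s : Sheet m)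
    (i : Fin (nN m)) :
    simMap (rungLo A cell s i) (rungScale A cell s i) (rungRot A cell s i) ''
      treeSet S l true (childA A cell s i) ⊆ treeSet S (l + 1) cell A := by
  rw [← rungMap_eq]
  exact Set.subset_union_of_subset_right
    (Set.subset_iUnion (fun si : Sheet m × Fin (nN m) =>
      rungMap A cell si.1 si.2 '' treeSet S l true (childA A cell si.1 si.2)) (s, i)) _

lemma tco_eq_sub (x y : E m) : tco (x - y) = tco x - tco y := by simp [tco]

lemma piece_norm_pos (A : ℝ) (hA : 0 < A) (cell : Bool) (w : Wire m) (j : ℕ) :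
    0 < ‖wirePt A cell w ((j + 1 : ℕ) : ℝ) - wirePt A cell w j‖ := by
  rw [norm_pos_iff]
  intro e
  have := congrArg tco e
  rw [tco_eq_sub, tco_wirePt, tco_wirePt] at this
  have h0 : tco (0 : E m) = 0 := by simp [tco]
  rw [h0] at this
  push_cast at this
  linarith

lemma seg_subset {S : Set (E m)} {l : ℕ} {A : ℝ} {cell : Bool} {w : Wire m} {j : ℕ}
    (hj : j < width m) (ho : l = 0 ∨ ¬ Owned A cell (pieceOf A cell w j)) :
    segMap (wirePt A cell w j) (wirePt A cell w ((j + 1 : ℕ) : ℝ)) '' S ⊆ treeSet S l cell A := by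
  cases l with
  | zero =>
    exact Set.subset_iUnion (fun P : {P : Piece m // IsPiece A cell P} =>
      segMap P.1.2.1 P.1.2.2 '' S) ⟨_, w, j, hj, rfl⟩
  | succ l =>
    have ho' := ho.resolve_left (Nat.succ_ne_zero l)
    exact Set.subset_union_of_subset_left
      (Set.subset_iUnion (fun P : {P : Piece m // IsPiece A cell P ∧ ¬ Owned A cell P} =>
        segMap P.1.2.1 P.1.2.2 '' S) ⟨_, ⟨w, j, hj, rfl⟩, ho'⟩) _

lemma owned_cases {A : ℝ} {cell : Bool} {w : Wire m} {j : ℕ}
    (ho : Owned A cell (pieceOf A cell w j)) :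
    ∃ (s : Sheet m) (i : Fin (nN m)), j = winStart s i ∧ ∃ i' : Fin (nN m + 1),
      (i' = i.castSucc ∨ i' = i.succ) ∧
      wirePt A cell w j = wirePt A cell (.lane s i') (winStart s i) ∧
      wirePt A cell w ((j + 1 : ℕ) : ℝ) =
        wirePt A cell (.lane s i') ((winStart s i + 1 : ℕ) : ℝ) := by
  obtain ⟨s, i, e | e⟩ := ho <;>
    · simp only [pieceOf, Prod.mk.injEq] at e
      refine ⟨s, i, e.1, _, ?_, e.2.1, e.2.2⟩
      first | exact Or.inl rfl | exact Or.inr rfl

lemma piece_ends_mem (hB : Big m) {S : Set (E m)} (h0 : (0 : E m) ∈ S) (h1 : eT ∈ S) :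
    ∀ (l : ℕ) (cell : Bool) (A : ℝ) (w : Wire m) (j : ℕ), j < width m →
      wirePt A cell w j ∈ treeSet S l cell A ∧
        wirePt A cell w ((j + 1 : ℕ) : ℝ) ∈ treeSet S l cell A := by
  intro l
  induction l with
  | zero =>
    intro cell A w j hj
    refine ⟨seg_subset hj (Or.inl rfl) ⟨0, h0, segMap_zero _ _⟩,
      seg_subset hj (Or.inl rfl) ⟨eT, h1, segMap_eT _ _⟩⟩
  | succ l ih =>
    intro cell A w j hj
    by_cases ho : Owned A cell (pieceOf A cell w j)
    · obtain ⟨s, i, -, i', hi', e0, e1⟩ := owned_cases ho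
      have hW := width_pos m
      have hlast : (((width m - 1) + 1 : ℕ) : ℝ) = (width m : ℝ) := by
        congr 1; omega
      have hsub := child_subset S l A cell s i
      rw [← rungMap_eq] at hsub
      rw [e0, e1]
      rcases hi' with rfl | rfl
      · rw [← rungMap_lane0_zero hB, ← rungMap_lane0_width hB]
        exact ⟨hsub ⟨_, (ih true _ _ 0 hW).1, rfl⟩,
          hsub ⟨_, hlast ▸ (ih true _ _ (width m - 1) (by omega)).2, rfl⟩⟩
      · rw [← rungMap_top_zero hB, ← rungMap_top_width hB]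
        exact ⟨hsub ⟨_, (ih true _ _ 0 hW).1, rfl⟩,
          hsub ⟨_, hlast ▸ (ih true _ _ (width m - 1) (by omega)).2, rfl⟩⟩
    · exact ⟨seg_subset hj (Or.inr ho) ⟨0, h0, segMap_zero _ _⟩,
        seg_subset hj (Or.inr ho) ⟨eT, h1, segMap_eT _ _⟩⟩

lemma node_mem (hB : Big m) {S : Set (E m)} (h0 : (0 : E m) ∈ S) (h1 : eT ∈ S) (l : ℕ)
    (cell : Bool) (A : ℝ) (w : Wire m) {j : ℕ} (hj : j ≤ width m) :
    wirePt A cell w j ∈ treeSet S l cell A := by
  rcases Nat.lt_or_ge j (width m) with hj' | hj'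
  · exact (piece_ends_mem hB h0 h1 l cell A w j hj').1
  · have : j = (j - 1) + 1 := by have := width_pos m; omega
    rw [this]
    exact (piece_ends_mem hB h0 h1 l cell A w (j - 1) (by have := width_pos m; omega)).2

lemma norm_sub_le_sum {F : Type*} [NormedAddCommGroup F] (x : ℕ → F) (N : ℕ) :
    ‖x N - x 0‖ ≤ ∑ i ∈ range N, ‖x (i + 1) - x i‖ := by
  rw [← Finset.sum_range_sub x N]
  exact norm_sum_le _ _

lemma piece_bound (hB : Big m) {S : Set (E m)} {c : ℝ} :
    ∀ (l : ℕ) (cell : Bool) (A : ℝ) (f : E m → EuclideanSpace ℝ (Fin k)), 0 < A →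
      CopyBound S (treeSet S l cell A) f c → ∀ (w : Wire m) (j : ℕ), j < width m →
      ‖f (wirePt A cell w ((j + 1 : ℕ) : ℝ)) - f (wirePt A cell w j)‖ ≤
        c * ‖wirePt A cell w ((j + 1 : ℕ) : ℝ) - wirePt A cell w j‖ := by
  have direct : ∀ (l : ℕ) (cell : Bool) (A : ℝ) (f : E m → EuclideanSpace ℝ (Fin k)), 0 < A →
      CopyBound S (treeSet S l cell A) f c → ∀ (w : Wire m) (j : ℕ), j < width m →
      (l = 0 ∨ ¬ Owned A cell (pieceOf A cell w j)) →
      ‖f (wirePt A cell w ((j + 1 : ℕ) : ℝ)) - f (wirePt A cell w j)‖ ≤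
        c * ‖wirePt A cell w ((j + 1 : ℕ) : ℝ) - wirePt A cell w j‖ := by
    intro l cell A f hA hf w j hj ho
    have h := hf _ _ _ (piece_norm_pos A hA cell w j) (seg_subset hj ho)
    have e := segMap_eT (wirePt A cell w j) (wirePt A cell w ((j + 1 : ℕ) : ℝ))
    unfold segMap at e
    rwa [e] at h
  intro l
  induction l with
  | zero => exact fun cell A f hA hf w j hj => direct 0 cell A f hA hf w j hj (Or.inl rfl)
  | succ l ih =>
    intro cell A f hA hf w j hj
    by_cases ho : Owned A cell (pieceOf A cell w j)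
    swap
    · exact direct _ cell A f hA hf w j hj (Or.inr ho)
    obtain ⟨s, i, -, i', hi', e0, e1⟩ := owned_cases ho
    rw [e0, e1]
    set σ := rungScale A cell s i
    have hσ : 0 < σ := rungScale_pos hB A cell s i
    have hA' : 0 < childA A cell s i := by
      have := one_le_rungLen hB A cell s i
      have : (0 : ℝ) < width m := by exact_mod_cast width_pos m
      have : (0 : ℝ) < nN m := by exact_mod_cast nN_pos m
      unfold childA; positivity
    have hc := ih true _ (pull (rungLo A cell s i) σ (rungRot A cell s i) f) hA'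
      (pull_copy hσ hf (child_subset S l A cell s i))
    have key : ∀ v : Wire m, (∀ x : ℝ, wirePt (childA A cell s i) true v x =
        wirePt (childA A cell s i) true v 0 + (childA A cell s i * x) • eT) →
        ‖f (rungMap A cell s i (wirePt (childA A cell s i) true v (width m : ℝ))) -
          f (rungMap A cell s i (wirePt (childA A cell s i) true v ((0 : ℕ) : ℝ)))‖ ≤ c * A := by
      intro v hv
      have hlen : ∀ a : ℕ, ‖wirePt (childA A cell s i) true v ((a + 1 : ℕ) : ℝ) -
          wirePt (childA A cell s i) true v a‖ = childA A cell s i := by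
        intro a
        rw [hv, hv (a : ℝ), add_sub_add_left_eq_sub, ← sub_smul, norm_smul, norm_eT, mul_one]
        push_cast
        rw [Real.norm_of_nonneg (by linarith)]
        ring
      have h1 := norm_sub_le_sum (fun a : ℕ => pull (rungLo A cell s i) σ (rungRot A cell s i) f
        (wirePt (childA A cell s i) true v a)) (width m)
      have h2 : ∀ a ∈ range (width m),
          ‖pull (rungLo A cell s i) σ (rungRot A cell s i) f
              (wirePt (childA A cell s i) true v ((a + 1 : ℕ) : ℝ)) -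
            pull (rungLo A cell s i) σ (rungRot A cell s i) f
              (wirePt (childA A cell s i) true v a)‖ ≤ c * childA A cell s i := by
        intro a ha
        exact le_trans (hc v a (Finset.mem_range.1 ha)) (le_of_eq (by rw [hlen]))
      have h3 := h1.trans (Finset.sum_le_sum h2)
      rw [Finset.sum_const, Finset.card_range, nsmul_eq_mul, norm_pull _ hσ, inv_mul_eq_div,
        div_le_iff₀ hσ] at h3
      refine le_trans h3 (le_of_eq ?_)
      calc (width m : ℝ) * (c * childA A cell s i) * σ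
          = c * (childA A cell s i * width m * σ) := by ring
        _ = c * A := by
          rw [show σ = rungLen A cell s i / nN m from rfl, width_mul_childA hB]
    have hn : ‖wirePt A cell (.lane s i') ((winStart s i + 1 : ℕ) : ℝ) -
        wirePt A cell (.lane s i') (winStart s i)‖ = A := by
      rw [window_shift hB, add_sub_cancel_left, norm_smul, norm_eT, mul_one,
        Real.norm_of_nonneg hA.le]
    rw [hn]
    rcases hi' with rfl | rfl
    · rw [← rungMap_lane0_zero hB, ← rungMap_lane0_width hB]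
      exact key _ (fun x => by simp [lane_zero_pt])
    · rw [← rungMap_top_zero hB, ← rungMap_top_width hB]
      exact key _ (fun x => by simp [top_pt, add_comm])

end Vale.Agent.P208

end
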