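import Vale.Agent.P208.Embed.Block

/-!
One saturated direction makes the transverse stretch grow from level to level.
-/

noncomputable section

open Finset RealInnerProductSpace

namespace Vale.Agent.P208

variable {m k : ℕ}

/-- first node of the plateau of a slot -/
def plateau (s : Sheet m) : ℕ := slotStart s + r1 m

lemma plateau_le (s : Sheet m) : plateau s ≤ width m := by
  have := slot_end_le s
  unfold plateau slotLen at *; omega

lemma plateau_mem_mid (s : Sheet m) :
    r0 m + r2 m ≤ plateau s ∧ plateau s + nN m ≤ r0 m + r2 m + midLen m := by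
  have h1 := slot_end_le s
  have h2 := le_slotStart s
  unfold plateau slotLen width groundLen at *; omega

lemma wirePt_end (h : Big m) (A : ℝ) (cell : Bool) (w : Wire m) {x : ℝ} (hx : tau0 m x = 0)
    (hw : cell = true → w ≠ .top) :
    wirePt A cell w x = wirePt A cell (.lane none 0) x := by
  have hrow : tauRow m x = 0 :=
    le_antisymm (hx ▸ tauRow_le_tau0 h x) (trap_nonneg _ _ _ _)
  have hs : ∀ s : Sheet m, tauS s x = 0 := fun s =>
    le_antisymm (hrow ▸ tauS_le_tauRow h s x) (trap_nonneg _ _ _ _)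
  rcases w with ⟨_ | p, i⟩ | p | _
  · simp [wirePt, wireZ, wireL, hx]
  · simp [wirePt, wireZ, wireL, hx, hs (some p)]
  · simp [wirePt, wireZ, wireL, hx, hrow]
  · cases cell
    · simp [wirePt, wireZ, wireL, hx]
    · exact absurd rfl (hw rfl)

lemma lane_zero_lane (A : ℝ) (cell : Bool) (s : Sheet m) (x : ℝ) :
    wirePt A cell (.lane s 0) x = wirePt A cell (.lane none 0) x := by
  rcases s with _ | p
  · rfl
  · simp [wirePt, wireZ, wireL, bProf_zero]

lemma lane_last_lane (A : ℝ) (cell : Bool) (s : Sheet m) (x : ℝ) :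
    wirePt A cell (.lane s (Fin.last (nN m))) x =
      wirePt A cell (.lane none (Fin.last (nN m))) x := by
  rcases s with _ | p
  · rfl
  · simp [wirePt, wireZ, wireL, bProf_top]

lemma top_eq_last (A : ℝ) {x : ℝ} (hx : tau0 m x = 1) :
    wirePt A true (.top : Wire m) x = wirePt A true (.lane none (Fin.last (nN m))) x := by
  simp [wirePt, wireZ, wireL, hx]

/-- the row of a label as a lane -/
def rowLane (j : Fin m) : Fin (nN m + 1) :=
  ⟨rowIdx j, by have := j.isLt; unfold rowIdx nN; omega⟩

lemma rowIdx_le (j : Fin m) : rowIdx j ≤ nN m := Nat.le_of_lt_succ (rowLane j).isLt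

lemma row_eq_lane (h : Big m) (A : ℝ) (cell : Bool) (j : Fin m) :
    wirePt A cell (.row j) (plateau (some j)) =
      wirePt A cell (.lane (some j) (rowLane j)) (plateau (some j)) := by
  have hn := nN_pos m
  obtain ⟨-, h1, h2⟩ := window_profiles h (some j) ⟨0, hn⟩ (c := 0) ⟨le_rfl, zero_le_one⟩
  rw [show ((winStart (some j) ⟨0, hn⟩ : ℕ) : ℝ) + 0 = (plateau (some j) : ℝ) by
    simp [winStart, plateau]] at h1 h2
  simp [wirePt, wireZ, wireL, rowLane, h1, h2, bProf_rowIdx h]

lemma seven_fifth_le (i j : Fin m) (hij : i ≠ j) : (7 : ℝ) / 5 ≤ ‖eL j - eL i‖ := by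
  have h : ‖eL j - eL i‖ ^ 2 = 2 := by
    rw [norm_sub_sq_real, norm_eL, norm_eL]
    simp [eL, EuclideanSpace.inner_single_left, hij]
    norm_num
  nlinarith [norm_nonneg (eL j - eL i)]

lemma plateau_profiles (h : Big m) (s : Sheet m) :
    tau0 m (plateau s : ℝ) = 1 ∧ tauS s (plateau s : ℝ) = 1 ∧ tauRow m (plateau s : ℝ) = 1 := by
  have hn := nN_pos m
  have := window_profiles h s ⟨0, hn⟩ (c := 0) ⟨le_rfl, zero_le_one⟩
  rwa [show ((winStart s ⟨0, hn⟩ : ℕ) : ℝ) + 0 = (plateau s : ℝ) by
    simp [winStart, plateau]] at this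

/-! ### Straight blocks and their allowances -/

lemma straight_zero (cell : Bool) (a b : ℕ) :
    StraightOn cell (.lane none (0 : Fin (nN m + 1)) : Wire m) a b :=
  fun j _ _ => ⟨by simp [wireZ], by simp [wireL]⟩

lemma straight_top (a b : ℕ) : StraightOn true (.top : Wire m) a b :=
  fun j _ _ => ⟨by simp [wireZ], by simp [wireL]⟩

lemma ground_tau (h : Big m) {j : ℕ} (h1 : r0 m ≤ j) (h2 : j ≤ r0 m + groundLen m) :
    tau0 m (j : ℝ) = 1 :=
  tau0_eq_one h (by exact_mod_cast h1) (by exact_mod_cast h2)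

lemma straight_ground (h : Big m) (cell : Bool) (i : Fin (nN m + 1)) {a b : ℕ} (h1 : r0 m ≤ a)
    (h2 : b ≤ r0 m + groundLen m) : StraightOn cell (.lane none i) a b := by
  intro j hj1 hj2
  refine ⟨?_, rfl⟩
  simp only [wireZ]
  rw [ground_tau h (h1.trans hj1) (hj2.trans h2), ground_tau h h1 (hj1.trans (hj2.trans h2))]

lemma straight_row (h : Big m) (cell : Bool) (p : Fin m) {a b : ℕ} (h1 : r0 m + r2 m ≤ a)
    (h2 : b ≤ r0 m + r2 m + midLen m) : StraightOn cell (.row p) a b := by
  have g2 : r0 m + r2 m + midLen m ≤ r0 m + groundLen m := by unfold groundLen; omega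
  have hr : ∀ j : ℕ, a ≤ j → j ≤ b → tauRow m (j : ℝ) = 1 ∧ tau0 m (j : ℝ) = 1 := fun j hj1 hj2 =>
    ⟨tauRow_eq_one h (by exact_mod_cast h1.trans hj1) (by exact_mod_cast hj2.trans h2),
      ground_tau h (by omega) (by omega)⟩
  intro j hj1 hj2
  obtain ⟨e1, e2⟩ := hr j hj1 hj2
  obtain ⟨e3, e4⟩ := hr a le_rfl (hj1.trans hj2)
  simp [wireZ, wireL, e1, e2, e3, e4]

lemma straight_lane (h : Big m) (cell : Bool) (s : Sheet m) (i : Fin (nN m + 1)) {b : ℕ}
    (h2 : b ≤ plateau s + nN m) : StraightOn cell (.lane s i) (plateau s) b := by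
  have hs : ∀ j : ℕ, plateau s ≤ j → j ≤ b → tauS s (j : ℝ) = 1 ∧ tau0 m (j : ℝ) = 1 := by
    intro j hj1 hj2
    have e : tauS s (j : ℝ) = 1 := by
      refine tauS_eq_one h s ?_ ?_
      · have : slotStart s + r1 m ≤ j := hj1
        exact_mod_cast this
      · have : j ≤ slotStart s + r1 m + nN m := by unfold plateau at h2; omega
        exact_mod_cast this
    exact ⟨e, tauS_pos_tau0 h (by rw [e]; norm_num)⟩
  intro j hj1 hj2
  obtain ⟨e1, e2⟩ := hs j hj1 hj2
  obtain ⟨e3, e4⟩ := hs (plateau s) le_rfl (hj1.trans hj2)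
  rcases s with _ | p <;> simp [wireZ, wireL, e1, e2, e3, e4]

lemma ground_budget (h : Big m) {i L : ℕ} (hi : i ≤ nN m) (hL : L ≤ groundLen m) :
    (i : ℝ) ^ 2 / r0 m * L ≤ 1 / (lam m : ℝ) := by
  have hr : (0 : ℝ) < r0 m := by exact_mod_cast r0_pos h
  have hl : (0 : ℝ) < lam m := by exact_mod_cast lam_pos h
  rw [div_mul_eq_mul_div, div_le_div_iff₀ hr hl, one_mul]
  have : i ^ 2 * L * lam m ≤ r0 m := by
    unfold r0
    calc i ^ 2 * L * lam m ≤ nN m ^ 2 * groundLen m * lam m := by gcongr
      _ = _ := by ring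
  exact_mod_cast this

lemma ramp_budget {R M L l : ℕ} (hl : 0 < l) (hR : R = l * M) (hM : 0 < M) (hL : L ≤ M) :
    1 / (R : ℝ) * L ≤ 1 / (l : ℝ) := by
  subst hR
  have hl' : (0 : ℝ) < l := by exact_mod_cast hl
  have hM' : (0 : ℝ) < M := by exact_mod_cast hM
  have hLM : (L : ℝ) ≤ M := by exact_mod_cast hL
  push_cast
  rw [div_mul_eq_mul_div, one_mul, div_le_div_iff₀ (by positivity) hl']
  nlinarith

lemma budget_ground_lane (h : Big m) (cell : Bool) (i : Fin (nN m + 1)) {L : ℕ}
    (hL : L ≤ groundLen m) : excess cell (.lane none i) * (L : ℝ) ≤ 4 / (lam m : ℝ) := by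
  refine (ground_budget h (Nat.le_of_lt_succ i.isLt) hL).trans ?_
  gcongr; norm_num

lemma budget_lane (h : Big m) (cell : Bool) (s : Sheet m) (i : Fin (nN m + 1)) {L : ℕ}
    (hL : L ≤ nN m) : excess cell (.lane s i) * (L : ℝ) ≤ 4 / (lam m : ℝ) := by
  have hg : nN m ≤ groundLen m := by
    have h1 : nN m ≤ slotLen m := by unfold slotLen; omega
    have h2 : slotLen m ≤ midLen m := by unfold midLen; exact Nat.le_mul_of_pos_left _ (by omega)
    unfold groundLen; omega
  have hl : (0 : ℝ) < lam m := by exact_mod_cast lam_pos h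
  rcases s with _ | p
  · exact budget_ground_lane h cell i (hL.trans hg)
  · simp only [excess, add_mul]
    refine (add_le_add (ground_budget h (Nat.le_of_lt_succ i.isLt) (hL.trans hg))
      (ramp_budget (lam_pos h) rfl (nN_pos m) hL)).trans ?_
    rw [← add_div]; gcongr; norm_num

lemma budget_row (h : Big m) (cell : Bool) (p : Fin m) {L : ℕ} (hL : L ≤ midLen m) :
    excess cell (.row p) * (L : ℝ) ≤ 4 / (lam m : ℝ) := by
  have hl : (0 : ℝ) < lam m := by exact_mod_cast lam_pos h
  simp only [excess, add_mul]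
  refine (add_le_add (ground_budget h (rowIdx_le p) ?_)
    (ramp_budget (lam_pos h) rfl (midLen_pos m) hL)).trans ?_
  · unfold groundLen; omega
  · rw [← add_div]; gcongr; norm_num

lemma deficit_all (h : Big m) {A u ε : ℝ} {cell : Bool} {f : E m → EuclideanSpace ℝ (Fin k)}
    {e : EuclideanSpace ℝ (Fin k)}
    (h0 : u * (A * width m) - ε ≤
      ⟪f (wirePt A cell (.lane none 0) (width m)) - f (wirePt A cell (.lane none 0) 0), e⟫)
    (ht : cell = true → u * (A * width m) - ε ≤
      ⟪f (wirePt A cell .top (width m)) - f (wirePt A cell .top 0), e⟫) (w : Wire m) :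
    u * (A * width m) - ε ≤
      ⟪f (wirePt A cell w (width m : ℝ)) - f (wirePt A cell w ((0 : ℕ) : ℝ)), e⟫ := by
  rw [Nat.cast_zero]
  by_cases hw : cell = true ∧ w = .top
  · obtain ⟨rfl, rfl⟩ := hw; exact ht rfl
  · have hw' : cell = true → w ≠ .top := fun hc he => hw ⟨hc, he⟩
    rw [wirePt_end h A cell w (tau0_width h) hw', wirePt_end h A cell w (tau0_zero h) hw']
    exact h0

/-- everything known about one gadget -/
structure GadgetData (S : Set (E m)) (l : ℕ) (cell : Bool) (A u w ε D : ℝ)
    (f : E m → EuclideanSpace ℝ (Fin k)) (e : EuclideanSpace ℝ (Fin k)) : Prop where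
  hD : DimOk k m D
  hA : AOk m l A
  h0S : (0 : E m) ∈ S
  h1S : eT ∈ S
  hf : Bilip D (treeSet S l cell A) f
  hC : CopyBound S (treeSet S l cell A) f (u + etaR m)
  hu : 0 ≤ u
  huD : u ≤ D
  he : ‖e‖ ≤ 1
  hε : 0 ≤ ε
  hεA : ε * (A * width m) ≤ tol m
  hw : 0 ≤ w
  hdef : u * (A * width m) - ε ≤
    ⟪f (wirePt A cell (.lane none 0) (width m)) - f (wirePt A cell (.lane none 0) 0), e⟫
  hflat : cell = false → w = 0
  hcell : cell = true →
    u * (A * width m) - ε ≤ ⟪f (wirePt A cell .top (width m)) - f (wirePt A cell .top 0), e⟫ ∧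
    w * nN m ≤ ‖f (wirePt A cell .top 0) - f (wirePt A cell (.lane none 0) 0)‖

namespace GadgetData

variable {S : Set (E m)} {l : ℕ} {cell : Bool} {A u w ε D : ℝ}
  {f : E m → EuclideanSpace ℝ (Fin k)} {e : EuclideanSpace ℝ (Fin k)}

lemma deficit (G : GadgetData S l cell A u w ε D f e) (v : Wire m) :
    u * (A * width m) - ε ≤
      ⟪f (wirePt A cell v (width m : ℝ)) - f (wirePt A cell v ((0 : ℕ) : ℝ)), e⟫ :=
  deficit_all G.hD.1 G.hdef (fun hc => (G.hcell hc).1) v

lemma mem (G : GadgetData S l cell A u w ε D f e) (v : Wire m) {j : ℕ} (hj : j ≤ width m) :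
    wirePt A cell v j ∈ treeSet S l cell A :=
  node_mem G.hD.1 G.h0S G.h1S l cell A v hj

lemma upper (G : GadgetData S l cell A u w ε D f e) (v v' : Wire m) {j : ℕ} (hj : j ≤ width m) :
    ‖nodeVal f A u cell e v j - nodeVal f A u cell e v' j‖ ≤
      D * ‖wirePt A cell v j - wirePt A cell v' j‖ := by
  have h := (G.hf _ (G.mem v hj) _ (G.mem v' hj)).2
  rw [dist_eq_norm (f _), dist_eq_norm] at h
  rwa [nodeVal, nodeVal, sub_sub_sub_cancel_right]

lemma lower (G : GadgetData S l cell A u w ε D f e) (v v' : Wire m) {j : ℕ} (hj : j ≤ width m) :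
    ‖wirePt A cell v j - wirePt A cell v' j‖ ≤
      ‖nodeVal f A u cell e v j - nodeVal f A u cell e v' j‖ := by
  have h := (G.hf _ (G.mem v hj) _ (G.mem v' hj)).1
  rw [dist_eq_norm (f _), dist_eq_norm] at h
  rwa [nodeVal, nodeVal, sub_sub_sub_cancel_right]

lemma transverse_le (G : GadgetData S l cell A u w ε D f e) : w ≤ D := by
  cases hc : cell
  · rw [G.hflat hc]; linarith [G.hD.2.1]
  · subst hc
    have h := (G.hcell rfl).2
    have h2 := G.upper .top (.lane none 0) (Nat.zero_le (width m))
    simp only [nodeVal, Nat.cast_zero, sub_sub_sub_cancel_right] at h2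
    rw [top_pt, lane_zero_pt, add_sub_cancel_left, norm_smul, norm_eZ, mul_one,
      Real.norm_natCast] at h2
    have hn : (0 : ℝ) < nN m := by exact_mod_cast nN_pos m
    rw [top_pt, lane_zero_pt] at h
    exact le_of_mul_le_mul_right (h.trans h2) hn

lemma close (G : GadgetData S l cell A u w ε D f e) (hr : BlockRigid) (v : Wire m) {a b : ℕ}
    (ha : a ≤ width m) (hb : b ≤ width m) (hstr : StraightOn cell v (min a b) (max a b))
    (hexc : excess cell v * ((max a b - min a b : ℕ) : ℝ) ≤ 4 / (lam m : ℝ)) :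
    ‖nodeVal f A u cell e v a - nodeVal f A u cell e v b‖ ≤ muTol m := by
  have h := block_close hr G.hD G.hA G.hC G.hu G.huD G.he G.hε G.hεA v (G.deficit v)
    (min_le_max (a := a) (b := b)) (max_le ha hb) hstr hexc
  rcases le_total a b with hab | hab
  · rw [min_eq_left hab, max_eq_right hab, norm_sub_rev] at h; exact h
  · rw [min_eq_right hab, max_eq_left hab] at h; exact h

/-- some rung is stretched more than the parent -/
lemma exists_rung (G : GadgetData S l cell A u w ε D f e) (hr : BlockRigid) (hg : GadgetGain) :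
    ∃ (s : Sheet m) (i : Fin (nN m)),
      Real.sqrt (w ^ 2 + gainDelta m) * rungLen A cell s i ≤
        ‖f (wirePt A cell (.lane s i.succ) (winStart s i)) -
          f (wirePt A cell (.lane s i.castSucc) (winStart s i))‖ := by
  by_contra hne
  push Not at hne
  have hB := G.hD.1
  set g := nodeVal f A u cell e with hgdef
  have hμ0 := muTol_nonneg m
  have hlane0 : ∀ a b : ℕ, a ≤ width m → b ≤ width m →
      ‖g (.lane none 0) a - g (.lane none 0) b‖ ≤ muTol m := fun a b ha hb =>
    G.close hr _ ha hb (straight_zero _ _ _) (by simp [excess]; positivity)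
  have hlast : ∀ a b : ℕ, r0 m + r2 m ≤ a → r0 m + r2 m ≤ b →
      a ≤ r0 m + r2 m + midLen m → b ≤ r0 m + r2 m + midLen m → ∀ i,
      ‖g (.lane none i) a - g (.lane none i) b‖ ≤ muTol m := by
    intro a b h1 h2 h3 h4 i
    have hw : r0 m + r2 m + midLen m ≤ width m := by unfold width groundLen; omega
    refine G.close hr _ (h3.trans hw) (h4.trans hw)
      (straight_ground hB _ _ (le_min (by omega) (by omega)) (max_le ?_ ?_))
      (budget_ground_lane hB _ _ ?_) <;> unfold groundLen <;> omega
  let V : Sheet m → ℕ → EuclideanSpace ℝ (Fin k) := fun s i =>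
    g (.lane s ⟨min i (nN m), Nat.lt_succ_of_le (min_le_right _ _)⟩) (plateau s)
  have hV : ∀ (s : Sheet m) (i : ℕ) (hi : i ≤ nN m),
      V s i = g (.lane s ⟨i, Nat.lt_succ_of_le hi⟩) (plateau s) := by
    intro s i hi; simp only [V, min_eq_left hi]
  refine hg k m D w (4 * muTol m) V G.hD G.hw (by linarith [G.transverse_le, G.hD.2.1])
    (by positivity) ?_ ?_ ?_ ?_ ?_ ?_ ?_
  · have hm : (100 : ℝ) ≤ m := (real_le_of_big G.hD).2
    unfold muTol
    rw [mul_one_div, div_le_div_iff₀ (by positivity) (by positivity), one_mul]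
    calc 4 * (m : ℝ) ^ 16 ≤ (m : ℝ) ^ 4 * (m : ℝ) ^ 16 := by
          gcongr
          linarith [le_self_pow₀ (a := (m : ℝ)) (by linarith) (n := 4) (by norm_num)]
      _ = _ := by rw [← pow_add]
  · intro s
    rw [hV s 0 (Nat.zero_le _), hV none 0 (Nat.zero_le _)]
    have e1 : g (.lane s ⟨0, Nat.succ_pos _⟩) (plateau s) = g (.lane none 0) (plateau s) := by
      simp only [hgdef, nodeVal]; rw [← lane_zero_lane A cell s]; rfl
    rw [e1]
    exact (hlane0 _ _ (plateau_le s) (plateau_le none)).trans (by linarith)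
  · intro s
    rw [hV s _ le_rfl, hV none _ le_rfl]
    have e1 : g (.lane s (Fin.last _)) (plateau s) = g (.lane none (Fin.last _)) (plateau s) := by
      simp only [hgdef, nodeVal, lane_last_lane A cell s]
    have := plateau_mem_mid s
    have := plateau_mem_mid (none : Sheet m)
    calc _ = ‖g (.lane none (Fin.last _)) (plateau s) -
          g (.lane none (Fin.last _)) (plateau (none : Sheet m))‖ := by rw [← e1]; rfl
      _ ≤ muTol m := hlast _ _ (by omega) (by omega) (by omega) (by omega) _
      _ ≤ _ := by linarith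
  · rw [hV none _ le_rfl, hV none 0 (Nat.zero_le _)]
    cases hc : cell
    · rw [G.hflat hc]
      simp only [zero_mul]
      exact le_trans (by linarith) (norm_nonneg _)
    · subst hc
      have h2 := (G.hcell rfl).2
      have ht : ‖g .top 0 - g .top (plateau (none : Sheet m))‖ ≤ muTol m :=
        G.close hr .top (Nat.zero_le _) (plateau_le (none : Sheet m)) (straight_top _ _)
          (by simp [excess]; positivity)
      have hl := hlane0 0 (plateau (none : Sheet m)) (Nat.zero_le _) (plateau_le _)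
      have e1 : g .top (plateau (none : Sheet m)) =
          g (.lane none (Fin.last _)) (plateau (none : Sheet m)) := by
        simp only [hgdef, nodeVal, top_eq_last A (plateau_profiles hB none).1]
      rw [e1] at ht
      have e2 : ‖f (wirePt A true .top 0) - f (wirePt A true (.lane none 0) 0)‖ =
          ‖g .top 0 - g (.lane none 0) 0‖ := by
        simp [hgdef, nodeVal]
      rw [e2] at h2
      have := norm_sub_le_norm_sub_add_norm_sub (g .top 0)
        (g (.lane none (Fin.last _)) (plateau (none : Sheet m))) (g (.lane none 0) 0)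
      have := norm_sub_le_norm_sub_add_norm_sub
        (g (.lane none (Fin.last (nN m))) (plateau (none : Sheet m)))
        (g (.lane none 0) (plateau (none : Sheet m))) (g (.lane none 0) 0)
      rw [norm_sub_rev (g (.lane none 0) 0) _] at hl
      have key : w * (nN m : ℝ) - 4 * muTol m ≤
          ‖g (.lane none (Fin.last (nN m))) (plateau (none : Sheet m)) -
            g (.lane none 0) (plateau (none : Sheet m))‖ := by linarith
      exact key
  · intro j
    rw [hV _ _ (rowIdx_le j), hV _ _ (rowIdx_le j)]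
    have h1 := G.upper (.lane (some j) (rowLane j)) (.lane none (rowLane j))
      (plateau_le (some j))
    have e1 : ‖wirePt A cell (.lane (some j) (rowLane j)) (plateau (some j) : ℕ) -
        wirePt A cell (.lane none (rowLane j)) (plateau (some j) : ℕ)‖ = 1 := by
      simp [wirePt, wireZ, wireL, rowLane, bProf_rowIdx hB, (plateau_profiles hB (some j)).2.1]
    rw [e1, mul_one] at h1
    have := plateau_mem_mid (some j)
    have := plateau_mem_mid (none : Sheet m)
    have h2 := hlast (plateau (some j)) (plateau (none : Sheet m)) (by omega) (by omega)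
      (by omega) (by omega) (rowLane j)
    refine (norm_sub_le_norm_sub_add_norm_sub _ (g (.lane none (rowLane j)) (plateau (some j)))
      _).trans ?_
    calc _ ≤ D + muTol m := add_le_add h1 h2
      _ ≤ _ := by linarith
  · intro i j hij
    rw [hV _ _ (rowIdx_le i), hV _ _ (rowIdx_le i)]
    have h1 := G.lower (.lane (some j) (rowLane i)) (.row i) (plateau_le (some j))
    have e1 : wirePt A cell (.lane (some j) (rowLane i)) (plateau (some j) : ℕ) -
        wirePt A cell (.row i) (plateau (some j) : ℕ) = eL j - eL i := by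
      obtain ⟨a, b, c⟩ := plateau_profiles hB (some j)
      simp [wirePt, wireZ, wireL, rowLane, bProf_rowIdx hB, a, b, c]
    rw [e1] at h1
    have h2 : g (.row i) (plateau (some i)) = g (.lane (some i) (rowLane i)) (plateau (some i)) := by
      simp only [hgdef, nodeVal, row_eq_lane hB A cell i]
    have := plateau_mem_mid (some i)
    have := plateau_mem_mid (some j)
    have h3 : ‖g (.row i) (plateau (some j)) - g (.row i) (plateau (some i))‖ ≤ muTol m :=
      G.close hr (.row i) (plateau_le (some j)) (plateau_le (some i))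
        (straight_row hB _ _ (le_min (by omega) (by omega)) (max_le (by omega) (by omega)))
        (budget_row hB _ _ (by omega))
    rw [h2] at h3
    have h4 := norm_sub_le_norm_sub_add_norm_sub (g (.lane (some j) (rowLane i)) (plateau (some j)))
      (g (.lane (some i) (rowLane i)) (plateau (some i))) (g (.row i) (plateau (some j)))
    rw [norm_sub_rev (g (.lane (some i) (rowLane i)) (plateau (some i)))] at h4
    have h5 := seven_fifth_le i j hij
    have key : 7 / 5 - 4 * muTol m ≤ ‖g (.lane (some j) (rowLane i)) (plateau (some j)) -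
        g (.lane (some i) (rowLane i)) (plateau (some i))‖ := by linarith
    exact key
  · intro s i hi
    rw [hV s _ hi, hV s _ hi.le]
    have h1 := hne s ⟨i, hi⟩
    have hwb : winStart s ⟨i, hi⟩ = plateau s + i := rfl
    have hc : ∀ i', ‖g (.lane s i') (plateau s) - g (.lane s i') (winStart s ⟨i, hi⟩)‖
        ≤ muTol m := by
      intro i'
      have hle : plateau s ≤ winStart s ⟨i, hi⟩ := by omega
      refine G.close hr _ (plateau_le s) (winStart_lt s _).le ?_ (budget_lane hB _ _ _ ?_)
      · rw [min_eq_left hle, max_eq_right hle]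
        exact straight_lane hB _ _ _ (by omega)
      · rw [min_eq_left hle, max_eq_right hle]; omega
    have e2 : ‖f (wirePt A cell (.lane s (Fin.succ ⟨i, hi⟩)) (winStart s ⟨i, hi⟩)) -
        f (wirePt A cell (.lane s (Fin.castSucc ⟨i, hi⟩)) (winStart s ⟨i, hi⟩))‖ =
        ‖g (.lane s (Fin.succ ⟨i, hi⟩)) (winStart s ⟨i, hi⟩) -
          g (.lane s (Fin.castSucc ⟨i, hi⟩)) (winStart s ⟨i, hi⟩)‖ := by
      simp [hgdef, nodeVal]
    rw [e2, rungLen_eq hB] at h1
    have hp := hc (Fin.succ ⟨i, hi⟩)
    have hq := hc (Fin.castSucc ⟨i, hi⟩)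
    rw [norm_sub_rev] at hq
    have := norm_sub_le_norm_sub_add_norm_sub (g (.lane s (Fin.succ ⟨i, hi⟩)) (plateau s))
      (g (.lane s (Fin.succ ⟨i, hi⟩)) (winStart s ⟨i, hi⟩))
      (g (.lane s (Fin.castSucc ⟨i, hi⟩)) (plateau s))
    have := norm_sub_le_norm_sub_add_norm_sub
      (g (.lane s (Fin.succ ⟨i, hi⟩)) (winStart s ⟨i, hi⟩))
      (g (.lane s (Fin.castSucc ⟨i, hi⟩)) (winStart s ⟨i, hi⟩))
      (g (.lane s (Fin.castSucc ⟨i, hi⟩)) (plateau s))
    calc _ = ‖g (.lane s (Fin.succ ⟨i, hi⟩)) (plateau s) -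
          g (.lane s (Fin.castSucc ⟨i, hi⟩)) (plateau s)‖ := rfl
      _ ≤ Real.sqrt (w ^ 2 + gainDelta m) * Real.sqrt (rungSq s ⟨i, hi⟩) + 4 * muTol m := by
          linarith
      _ = _ := rfl

/-- data passed to the child of a rung -/
lemma child {l : ℕ} (G : GadgetData S (l + 1) cell A u w ε D f e) (s : Sheet m) (i : Fin (nN m))
    (hgain : Real.sqrt (w ^ 2 + gainDelta m) * rungLen A cell s i ≤
      ‖f (wirePt A cell (.lane s i.succ) (winStart s i)) -
        f (wirePt A cell (.lane s i.castSucc) (winStart s i))‖) :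
    ∃ ε', GadgetData S l true (childA A cell s i) u (Real.sqrt (w ^ 2 + gainDelta m)) ε' D
      (pull (rungLo A cell s i) (rungScale A cell s i) (rungRot A cell s i) f) e := by
  have hB := G.hD.1
  have hσ := rungScale_pos hB A cell s i
  set σ := rungScale A cell s i with hσdef
  have hn0 : (0 : ℝ) < nN m := by exact_mod_cast nN_pos m
  have hA1 := G.hA.one_le
  have hA0 : 0 < A := by linarith
  obtain ⟨hη0, hη1, hη2⟩ := etaR_bound hB G.hA
  obtain ⟨hDm, hm100⟩ := real_le_of_big G.hD
  set B : ℝ := (nN m : ℝ) ^ 2 / r0 m + 1 / r1 m with hBdef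
  set ε'' : ℝ := ε + (u + etaR m) * (B / A) + etaR m * (A * width m) with hε''
  have hu0 := G.hu
  have hεnn := G.hε
  have hε''0 : 0 ≤ ε'' := by rw [hε'', hBdef]; positivity
  have hdeficit : ∀ i' : Fin (nN m + 1),
      u * A - ε'' ≤ ⟪f (wirePt A cell (.lane s i') ((winStart s i + 1 : ℕ) : ℝ)) -
        f (wirePt A cell (.lane s i') (winStart s i)), e⟫ := by
    intro i'
    have hk := winStart_lt s i
    have h := block_inner (fun j : ℕ => f (wirePt A cell (.lane s i') j))
      (pieceLen A cell (.lane s i')) (Nat.le_succ (winStart s i)) hk (ε := ε) (T := A * width m)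
      hη0 G.he (fun j _ => pieceLen_nonneg _ _ _ j)
      (fun j hj => piece_bound hB (l + 1) cell A f hA0 G.hC _ j hj) (G.deficit _)
    rw [Nat.Ico_succ_singleton, Finset.sum_singleton] at h
    have hlen : pieceLen A cell (.lane s i') (winStart s i) = A := by
      rw [pieceLen, window_shift hB, add_sub_cancel_left, norm_smul, norm_eT, mul_one,
        Real.norm_of_nonneg hA0.le]
    rw [hlen] at h
    have hexc : excess cell (.lane s i') ≤ B := by
      have hi : (i'.val : ℝ) ≤ nN m := by exact_mod_cast Nat.le_of_lt_succ i'.isLt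
      have h2 : (i'.val : ℝ) ^ 2 / r0 m ≤ (nN m : ℝ) ^ 2 / r0 m := by gcongr
      rcases s with _ | p <;> simp only [excess, hBdef]
      · have : (0 : ℝ) ≤ 1 / r1 m := by positivity
        linarith
      · linarith
    have h3 : (∑ j ∈ range (width m), pieceLen A cell (.lane s i') j) - A * width m ≤ B / A := by
      have := sum_pieceLen_excess hB hA0 cell (.lane s i')
      have : excess cell (Wire.lane s i') / A ≤ B / A := by gcongr
      linarith
    have h4 := mul_le_mul_of_nonneg_left h3 (add_nonneg hu0 hη0)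
    calc u * A - ε'' ≤ _ := by rw [hε'']; linarith
      _ ≤ _ := h
  refine ⟨ε'' / σ, ⟨G.hD, childA_aok hB G.hA cell s i, G.h0S, G.h1S,
    pull_bilip hσ G.hf (child_subset S l A cell s i),
    pull_copy hσ G.hC (child_subset S l A cell s i), G.hu, G.huD, G.he, by positivity, ?_,
    Real.sqrt_nonneg _, ?_, by simp, fun _ => ⟨?_, ?_⟩⟩⟩
  · have hAW : childA A cell s i * width m = A / σ := by
      rw [eq_div_iff hσ.ne', show σ = rungLen A cell s i / nN m from rfl, width_mul_childA hB]
    rw [hAW, div_mul_div_comm]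
    have hσn : 1 / (nN m : ℝ) ≤ σ := by
      rw [hσdef, rungScale]; gcongr; exact one_le_rungLen hB A cell s i
    have h1 : ε'' * A / (σ * σ) ≤ ε'' * A * (nN m : ℝ) ^ 2 := by
      rw [div_le_iff₀ (by positivity)]
      have : 1 ≤ σ * nN m := by rwa [div_le_iff₀ hn0] at hσn
      nlinarith [mul_nonneg hε''0 hA0.le, one_le_pow₀ this (n := 2)]
    refine h1.trans ?_
    have hW : (0 : ℝ) < width m := by exact_mod_cast width_pos m
    have hm0 : (0 : ℝ) < m := by linarith
    have a1 : ε * A * (nN m : ℝ) ^ 2 ≤ tol m / 2 := by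
      have h2 : 2 * (nN m : ℝ) ^ 2 ≤ width m := by exact_mod_cast two_mul_nN_sq_le_width hB
      nlinarith [G.hεA, mul_nonneg hεnn hA0.le]
    have a2 : (u + etaR m) * B * (nN m : ℝ) ^ 2 ≤ tol m / 4 := by
      have hn6 : (nN m : ℝ) ≤ 3 * (m : ℝ) ^ 6 := by exact_mod_cast nN_le hB
      have hl : (0 : ℝ) < lam m := by exact_mod_cast lam_pos hB
      have b1 : B ≤ 2 / (lam m : ℝ) := by
        have := ground_budget hB (le_refl (nN m)) (Nat.succ_le_of_lt (groundLen_pos m))
        have := ramp_budget (lam_pos hB) (show r1 m = lam m * nN m from rfl) (nN_pos m)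
          (Nat.succ_le_of_lt (nN_pos m))
        rw [show (2 : ℝ) / lam m = 1 / (lam m : ℝ) + 1 / lam m by ring]
        simp only [Nat.succ_eq_add_one, zero_add, Nat.cast_one, mul_one] at *
        linarith
      calc (u + etaR m) * B * (nN m : ℝ) ^ 2
          ≤ (2 * m) * (2 / (lam m : ℝ)) * (3 * (m : ℝ) ^ 6) ^ 2 := by
            gcongr
            linarith [G.huD]
        _ = 36 * (m : ℝ) ^ 13 / (lam m : ℝ) := by ring
        _ ≤ _ := by
          unfold tol lam; push_cast
          rw [div_div, div_le_div_iff₀ (by positivity) (by positivity)]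
          have : (m : ℝ) ^ 90 = (m : ℝ) ^ 13 * (m : ℝ) ^ 50 * (m : ℝ) ^ 27 := by ring
          rw [this]
          have h27 : (144 : ℝ) ≤ (m : ℝ) ^ 27 := by
            calc (144 : ℝ) ≤ (m : ℝ) ^ 2 := by nlinarith
              _ ≤ _ := pow_le_pow_right₀ (by linarith) (by norm_num)
          have : 0 ≤ (m : ℝ) ^ 13 * (m : ℝ) ^ 50 := by positivity
          nlinarith
    have a3 : etaR m * (A * width m) * A * (nN m : ℝ) ^ 2 ≤ tol m / 4 := by
      have hW1 : (1 : ℝ) ≤ width m := by exact_mod_cast width_pos m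
      have h4 : etaR m * (A * width m) * A * (nN m : ℝ) ^ 2 * 4 ≤
          etaR m * (A * width m) ^ 2 * (nN m : ℝ) ^ 2 * m := by
        have h5 : A * 4 ≤ A * width m * m :=
          mul_le_mul (le_mul_of_one_le_right hA0.le hW1) (by linarith) (by norm_num)
            (by positivity)
        calc _ = etaR m * (A * width m) * (nN m : ℝ) ^ 2 * (A * 4) := by ring
          _ ≤ etaR m * (A * width m) * (nN m : ℝ) ^ 2 * (A * width m * m) :=
            mul_le_mul_of_nonneg_left h5 (by positivity)
          _ = _ := by ring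
      linarith
    calc ε'' * A * (nN m : ℝ) ^ 2 = ε * A * (nN m : ℝ) ^ 2 + (u + etaR m) * B * (nN m : ℝ) ^ 2 +
          etaR m * (A * width m) * A * (nN m : ℝ) ^ 2 := by
            rw [hε'']; field_simp
      _ ≤ _ := by linarith
  · have h := hdeficit i.castSucc
    rw [← rungMap_lane0_width hB, ← rungMap_lane0_zero hB, rungMap_eq] at h
    simp only [pull, ← smul_sub, real_inner_smul_left, Nat.cast_zero] at h ⊢
    rw [inv_mul_eq_div, le_div_iff₀ hσ, sub_mul, div_mul_cancel₀ _ hσ.ne']
    calc u * (childA A cell s i * width m) * σ - ε'' = u * A - ε'' := by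
          rw [show σ = rungLen A cell s i / nN m from rfl, mul_assoc, width_mul_childA hB]
      _ ≤ _ := h
  · have h := hdeficit i.succ
    rw [← rungMap_top_width hB, ← rungMap_top_zero hB, rungMap_eq] at h
    simp only [pull, ← smul_sub, real_inner_smul_left, Nat.cast_zero] at h ⊢
    rw [inv_mul_eq_div, le_div_iff₀ hσ, sub_mul, div_mul_cancel₀ _ hσ.ne']
    calc u * (childA A cell s i * width m) * σ - ε'' = u * A - ε'' := by
          rw [show σ = rungLen A cell s i / nN m from rfl, mul_assoc, width_mul_childA hB]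
      _ ≤ _ := h
  · rw [norm_pull _ hσ, ← rungMap_eq]
    have e0 := rungMap_lane0_zero hB A cell s i
    have e1 := rungMap_top_zero hB A cell s i
    rw [Nat.cast_zero] at e0 e1
    rw [e0, e1, inv_mul_eq_div, le_div_iff₀ hσ]
    calc Real.sqrt (w ^ 2 + gainDelta m) * nN m * σ
        = Real.sqrt (w ^ 2 + gainDelta m) * rungLen A cell s i := by
          rw [show σ = rungLen A cell s i / nN m from rfl]; field_simp
      _ ≤ _ := hgain

end GadgetData

theorem treeFalse_of (hr : BlockRigid) (hg : GadgetGain) : TreeFalse := by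
  suffices key : ∀ (l : ℕ) {k m : ℕ} {D : ℝ} {S : Set (E m)} {cell : Bool} {A u w ε : ℝ}
      {f : E m → EuclideanSpace ℝ (Fin k)} {e : EuclideanSpace ℝ (Fin k)},
      GadgetData S l cell A u w ε D f e → D ^ 2 < w ^ 2 + l * gainDelta m → False by
    intro k m D S l cell A u w ε f e hD hA h0 h1 hf hC hu huD he hε hεA hw hlt hdef hflat hcell
    exact key l ⟨hD, hA, h0, h1, hf, hC, hu, huD, he, hε, hεA, hw, hdef, hflat, hcell⟩ hlt
  intro l
  induction l with
  | zero =>
    intro k m D S cell A u w ε f e G hlt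
    have h1 := G.transverse_le
    have := G.hw
    simp only [Nat.cast_zero, zero_mul, add_zero] at hlt
    nlinarith
  | succ l ih =>
    intro k m D S cell A u w ε f e G hlt
    obtain ⟨s, i, hgain⟩ := G.exists_rung hr hg
    obtain ⟨ε', G'⟩ := G.child s i hgain
    refine ih G' ?_
    rw [Real.sq_sqrt (by unfold gainDelta; positivity)]
    push_cast at hlt
    linarith

end Vale.Agent.P208

end
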